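import Vale.Agent.P212H52.St
import Mathlib.Combinatorics.SimpleGraph.Metric

/-! Failure of rational injectivity, coarse maps, coarse retracts and graphs. -/

namespace Vale.Agent.N212R

open Vale.Agent.P212 Vale.Agent.P212Z

/-- There is exactly one `μ` with `P μ`; it is not rationally injective, and its kernel contains
an independent family of the size of the continuum. -/
def Bad {G : Type 1} {K : Type} [AddCommGroup G] [AddCommGroup K] (P : (G →+ K) → Prop) : Prop :=
  ∃ μ, P μ ∧ (∀ μ', P μ' → μ' = μ) ∧ ¬ RatInj μ ∧ BigKer μ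

/-- The maximal and the reduced Roe algebra of `X` exist, and for both, and for all completions
between them, the coarse assembly map exists, is unique and is not rationally injective. -/
def Fails (X : Type) [MetricSpace X] [BddGeometry X] : Prop :=
  (∃ (H A : Type) (_ : NormedAddCommGroup H) (_ : InnerProductSpace ℂ H)
    (_ : CompleteSpace H) (_ : NonUnitalCStarAlgebra A) (b : HilbertBasis (X × ℕ) ℂ H)
    (i : P212T.Op H H → A), IsMaxRoe b i) ∧
  (∃ (H A : Type) (_ : NormedAddCommGroup H) (_ : InnerProductSpace ℂ H)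
    (_ : CompleteSpace H) (_ : NonUnitalCStarAlgebra A) (b : HilbertBasis (X × ℕ) ℂ H)
    (i : P212T.Op H H → A), IsReducedRoe b i) ∧
  ∀ (H A : Type) [NormedAddCommGroup H] [InnerProductSpace ℂ H] [CompleteSpace H]
    [NonUnitalCStarAlgebra A] (b : HilbertBasis (X × ℕ) ℂ H) (i : P212T.Op H H → A),
    IsMaxRoe b i ∨ IsReducedRoe b i ∨ IsRoeCompletion b i → Bad (P212T.IsAssembly b i)

variable {X Y : Type} [MetricSpace X] [MetricSpace Y]

/-- Coarse maps: metrically proper and bornologous. -/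
def Coarse (f : X → Y) : Prop :=
  (∀ B, Bornology.IsBounded B → Bornology.IsBounded (f ⁻¹' B)) ∧
    ∀ r : ℝ, ∃ s : ℝ, ∀ x x', dist x x' ≤ r → dist (f x) (f x') ≤ s

variable (X Y) in
/-- `X` is a coarse retract of `Y`. -/
def Retract : Prop :=
  ∃ (i : X → Y) (ρ : Y → X), Coarse i ∧ Coarse ρ ∧ ∃ D : ℝ, ∀ x, dist (ρ (i x)) x ≤ D

variable (X Y) in
/-- `X` and `Y` are coarsely equivalent. -/
def CEquiv : Prop :=
  ∃ (i : X → Y) (ρ : Y → X), Coarse i ∧ Coarse ρ ∧
    ∃ D : ℝ, (∀ x, dist (ρ (i x)) x ≤ D) ∧ ∀ y, dist (i (ρ y)) y ≤ D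

/-- `X` is the vertex set of a connected graph with all degrees between `m` and `N`, with the path
metric. -/
def IsGraph (m N : ℕ) (X : Type) [MetricSpace X] : Prop :=
  ∃ Γ : SimpleGraph X, Γ.Connected ∧
    (∀ x, m ≤ (Γ.neighborSet x).encard ∧ (Γ.neighborSet x).encard ≤ N) ∧
    ∀ x y, dist x y = Γ.dist x y

end Vale.Agent.N212R
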