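import Vale.Agent.N212R.Push
import Vale.Agent.N212R.Defs
import Vale.Agent.P212H52.Br

/-! Spaces which detect the classes of the model space, and the failure of injectivity. -/

set_option linter.unusedSectionVars false

namespace Vale.Agent.N212R

open Vale.Agent.P212 Vale.Agent.P212.H268 Vale.Agent.P212Z Set ZeroAtInfty

theorem cont' {A B : Type} [NonUnitalCStarAlgebra A] [NonUnitalCStarAlgebra B]
    (Φ : A →⋆ₙₐ[ℂ] B) : Continuous Φ :=
  AddMonoidHomClass.continuous_of_bound Φ 1 fun x => by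
    rw [one_mul]; exact NonUnitalStarAlgHom.norm_apply_le Φ x

theorem sc_of {m : unitInterval → OpN} (h : Continuous m) : P212H.SC m :=
  ⟨((isCompact_range h).isBounded.exists_norm_le).imp fun _ k t => k _ ⟨t, rfl⟩,
    fun _ => h.clm_apply continuous_const, fun _ => h.star.clm_apply continuous_const⟩

theorem hom_htpy {M Q B : Type} [Ring M] [Algebra ℂ M] [Ring Q] [NormedRing B] [NormedAlgebra ℂ B]
    [CompleteSpace B] {R : Rel M Q B} {A A' : Type} [NonUnitalCStarAlgebra A]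
    [NonUnitalCStarAlgebra A'] {Y Θ : Type} (C : Ctx R A Y Θ) (c : P212Z.Cycle A')
    (φ : unitInterval → A →⋆ₙₐ[ℂ] A') (h : ∀ g, Continuous fun u => φ u g) :
    C.hom (KK.cls (c.comap (φ 0))) = C.hom (KK.cls (c.comap (φ 1))) := by
  obtain ⟨w, hw⟩ := c.M.exists_w
  have a := fun g => (cont' (c.quad w hw).ρ₀).comp (h g)
  have b := fun g => (cont' (c.quad w hw).ρ₁).comp (h g)
  have k := fun U : OpN => continuous_const (X := unitInterval) (y := U)
  exact ((C.hom_cls (c.comap (φ 0)) (w := w) hw).trans (P212H.swindleRow C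
    (fun u => (c.quad w hw).comap (φ u)) ⟨fun g => sc_of (a g), fun g => sc_of (b g),
      sc_of (k _), sc_of (k _), fun g => ((k _).mul (a g)).sub ((b g).mul (k _)),
      fun g => ((k _).mul (b g)).sub ((a g).mul (k _)),
      fun g => (((k _).mul (k _)).sub (k 1)).mul (a g),
      fun g => (((k _).mul (k _)).sub (k 1)).mul (b g)⟩)).trans (C.hom_cls (c.comap (φ 1)) (w := w) hw).symm

variable (τ : Tower) (Y Z : Type) [MetricSpace Y] [BddGeometry Y] [MetricSpace Z] [BddGeometry Z]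

/-- The model space embeds coarsely, and the local index extends at every scale. -/
def Det : Prop :=
  ∃ j : XT τ → Y, Fib j ∧ Born j ∧ (∀ s, ∃ r, ∀ x x', dist (j x) (j x') ≤ s → dist x x' ≤ r) ∧
    ∀ s, Sc j j 2 s → ∃ (t : ℕ) (ht : (2 : ℝ) ≤ t)
      (ψ : C₀(Rips (XT τ) t, ℂ) →⋆ₙₐ[ℂ] C₀(Rips Y s, ℂ)), ∀ χ, Ind j χ →
      ∀ c : P212Z.Cycle C₀(Rips (XT τ) 2, ℂ), (lamCtx (XT τ) t).hom (KK.cls (c.comap (χ.comp ψ))) =
        (lamCtx (XT τ) t).hom (KK.cls (c.comap (ripsRes ht)))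

variable {τ Y Z}

theorem Coarse.fib {f : Y → Z} (h : Coarse f) : Fib f := fun z => by
  rcases (f ⁻¹' {z}).eq_empty_or_nonempty with e | ⟨y, -⟩
  · exact e ▸ finite_empty
  · obtain ⟨R, k⟩ := (h.1 _ Bornology.isBounded_singleton).subset_closedBall y
    exact (finite_closedBall y R).subset k

theorem Fib.comp {X Y Z : Type} {f : X → Y} {g : Y → Z} (a : Fib f) (b : Fib g) : Fib (g ∘ f) :=
  fun z => (b z).preimage' fun y _ => a y

theorem Det.retract (h : Det τ Y) (r : Retract Y Z) : Det τ Z := by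
  obtain ⟨j, h1, h2, h3, h4⟩ := h
  obtain ⟨i, ρ, hi, hρ, D, hD⟩ := r
  have d0 : 0 ≤ D := dist_nonneg.trans (hD (j ⟨0, 0, 0, 1⟩))
  have key : ∀ y y' s, dist (ρ (i y)) (ρ (i y')) ≤ s → dist (ρ (i y)) (ρ (i y')) ≤ s + 2 * D ∧
      dist (ρ (i y)) y' ≤ s + 2 * D ∧ dist y (ρ (i y')) ≤ s + 2 * D ∧ dist y y' ≤ s + 2 * D := by
    intro y y' s k
    have a := hD y
    have b := hD y'
    have c := dist_triangle (ρ (i y)) (ρ (i y')) y'
    have d := dist_triangle_left y (ρ (i y')) (ρ (i y))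
    have e := dist_triangle_left y y' (ρ (i y))
    refine ⟨?_, ?_, ?_, ?_⟩ <;> linarith
  refine ⟨i ∘ j, h1.comp hi.fib, fun r => ?_, fun s => ?_, fun s hs => ?_⟩
  · obtain ⟨s, a⟩ := h2 r
    exact (hi.2 s).imp fun _ b x x' c => b _ _ (a x x' c)
  · obtain ⟨s', a⟩ := hρ.2 s
    exact (h3 (s' + 2 * D)).imp fun _ b x x' c => b x x' (key _ _ _ (a _ _ c)).2.2.2
  obtain ⟨s', a⟩ := hρ.2 s
  have k := fun x x' (c : dist x x' ≤ 2) => key _ _ _ (a _ _ (hs x x' c))
  obtain ⟨t, ht, ψ, b⟩ := h4 (s' + 2 * D) fun x x' c => (k x x' c).2.2.2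
  obtain ⟨κ, hκ⟩ := exists_ind (r := s) (s := s' + 2 * D) hρ.fib fun y y' c =>
    (a y y' c).trans (by linarith)
  obtain ⟨H, H0, H1, Hc⟩ := homotopy (f := fun e => bif e then j else ρ ∘ i ∘ j) (r := 2)
    (s := s' + 2 * D) (fun e => by cases e; exacts [(h1.comp hi.fib).comp hρ.fib, h1])
    fun e e' x x' c => by
      cases e <;> cases e'
      exacts [(k x x' c).1, (k x x' c).2.1, (k x x' c).2.2.1, (k x x' c).2.2.2]
  refine ⟨t, ht, κ.comp ψ, fun χ hχ c => ?_⟩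
  have e : χ.comp κ = H 0 := (hχ.comp hs hκ).uniq (fun x x' c => (k x x' c).1) H0
  rw [← b _ H1 c, ← hom_htpy _ c (fun u => (H u).comp ψ) fun g => Hc (ψ g), ← e]
  rfl

theorem bary_push {X : Type} [MetricSpace X] [BddGeometry X] {j : X → Y} (hf : Fib j) {r s : ℝ}
    (hs : Sc j j r s) {χ : C₀(Rips Y s, ℂ) →⋆ₙₐ[ℂ] C₀(Rips X r, ℂ)} (h : Ind j χ) (y : Y) :
    star (χ (bary s y)) * χ (bary s y) = ∑ x ∈ (hf y).toFinset, bary r x * bary r x := by
  ext p
  obtain ⟨q, e⟩ := exists_rp hs p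
  have a : ∀ (F : Finset X) (g : X → C₀(Rips X r, ℂ)), (∑ x ∈ F, g x) p = ∑ x ∈ F, g x p :=
    fun F g => map_sum (AddMonoidHom.mk' (fun f : C₀(Rips X r, ℂ) => f p) fun _ _ => rfl) g F
  rw [a]
  change star (χ _ p) * χ _ p = ∑ x ∈ _, ((√(p.t x) : ℝ) : ℂ) * ((√(p.t x) : ℝ) : ℂ)
  rw [h _ p q e]
  change star ((√(q.t y) : ℝ) : ℂ) * ((√(q.t y) : ℝ) : ℂ) = _
  simp only [Complex.star_def, Complex.conj_ofReal, ← Complex.ofReal_mul,
    Real.mul_self_sqrt (Rips.nonneg _ _)]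
  rw [e, md_apply hf, Complex.ofReal_sum]

theorem Det.fails (h : Det τ Y) : Fails Y := by
  obtain ⟨j, h1, h2, h3, h4⟩ := h
  have : Nonempty Y := ⟨j ⟨0, 0, 0, 1⟩⟩
  have : Nonempty (j '' base τ) := ⟨⟨_, ⟨0, 0, 0, 1⟩, rfl, rfl⟩⟩
  have hI : P212H.HInv :=
    P212H.hinv P212H58.eval (P212H60.fam P212H26.stab) @P212H.swindleRow
  obtain ⟨s₀, hs₀⟩ := h2 2
  obtain ⟨χ, hχ⟩ := exists_ind h1 hs₀
  have ind : LinearIndependent ℤ fun α : ℕ → Bool =>
      P212T.KX0.cls s₀ (ofOld ((wit τ (seg α)).comap χ)) := by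
    refine linearIndependent_iff'.2 fun T c h => ?_
    have := P212T.directed_KKH Y
    have e1 : AddCommGroup.DirectLimit.of (fun r : ℝ => P212T.KK C₀(Rips Y r, ℂ))
        (fun _ _ h => P212T.KK.comap (c0Comap (ripsInclCo h))) s₀
        (∑ α ∈ T, c α • Pres.of _ _ (ofOld ((wit τ (seg α)).comap χ))) = 0 := by
      rw [map_sum]
      simp only [map_zsmul]
      exact h
    obtain ⟨s, hs, e2⟩ := AddCommGroup.DirectLimit.of.zero_exact _ _ e1
    obtain ⟨t, ht, ψ, b⟩ := h4 s fun x x' c => (hs₀ x x' c).trans hs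
    have e4 := congrArg (fun z => P212T.homH hI (lamCtx (XT τ) t) (P212T.KK.comap ψ z)) e2
    have e5 : ∀ I, P212T.homH hI (lamCtx (XT τ) t) (P212T.KK.comap ψ
        (P212T.KK.comap (c0Comap (ripsInclCo hs)) (Pres.of _ _ (ofOld ((wit τ I).comap χ))))) =
        -yC τ ht (phiB (locSys (XT τ) _)) I := fun I => by
      rw [P212T.comap_of, P212T.comap_of, P212T.homH_of, ← lam_wit, KK.comap_cls,
        ← b _ (hχ.comp hs₀ (ind_res hs))]
      rfl
    simp only [map_zero, map_sum, map_zsmul, e5, smul_neg, Finset.sum_neg_distrib,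
      neg_eq_zero] at e4
    exact lin_indep t ht (sysB _ _) (phiB (locSys _ _)) (phiB_ev _) (phiB_aug _) T c e4
  refine ⟨⟨_, _, _, _, inferInstance, inferInstance, _, _, isMaxRoe_model⟩,
    ⟨_, _, _, _, inferInstance, inferInstance, _, H35.redF Y, H35.exists_reduced Y⟩,
    fun H A _ _ _ _ b i h => ?_⟩
  have hi := cpl_of (h.elim isRoeCompletion_of_isMaxRoe
    fun h => h.elim isRoeCompletion_of_isReducedRoe id)
  have e1 : P212T.IsAssembly b i (P212T.muH hI hi.hom) :=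
    P212T.isAssembly_congr (isAssembly_of (isAssembly_mu hi.hom)) fun r c =>
      (P212T.muH_cls hI hi.hom r c).trans (congrArg (mu hi.hom) (kxTo_cls r c)).symm
  obtain ⟨ι, hι⟩ := exists_inj_real
  have e3 := ind.comp ι hι
  have e4 : ∀ I, P212T.muH hI hi.hom (P212T.KX0.cls s₀ (ofOld ((wit τ I).comap χ))) = 0 :=
    fun I => (P212T.muH_cls hI hi.hom s₀ _).trans (mu_eq_zero_of_sub hi (j '' base τ)
      (image_zero h1 h2 h3) s₀ _ fun y hy => by
        change (wit τ I).M.ρ (χ (bary s₀ y)) = 0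
        rw [← CStarRing.star_mul_self_eq_zero_iff, ← map_star, ← map_mul, bary_push h1 hs₀ hχ,
          map_sum]
        refine Finset.sum_eq_zero fun x hx => ?_
        rw [map_mul, wit_bary τ I x fun k => hy ⟨x, k, (h1 y).mem_toFinset.1 hx⟩, zero_mul])
  refine ⟨_, e1, fun μ' h' => P212T.assembly_unique h' e1,
    not_inj_rat _ _ (e4 (seg (ι 0))) fun n hn => ?_, _, e3, fun a => e4 _⟩
  exact linearIndependent_iff'.1 e3 {0} (fun _ => n) (by rw [Finset.sum_singleton]; exact hn) 0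
    (Finset.mem_singleton_self _)

end Vale.Agent.N212R
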