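import Vale.Agent.N212R.Hair

/-! Counting ends at a scale: graphs with rays attached along a ray. -/

namespace Vale.Agent.N212R

open Vale.Agent.P212 Vale.Agent.P212Z Set Sum Relation

section C

variable {V : Type} {Γ : SimpleGraph V} {P : V → Prop} {u v : V} {k : ℕ}

/-- There is a walk inside `P`. -/
def C (Γ : SimpleGraph V) (P : V → Prop) : V → V → Prop :=
  ReflTransGen fun a b => P a ∧ P b ∧ Γ.Adj a b

theorem C.symm (h : C Γ P u v) : C Γ P v u := by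
  induction h with
  | refl => exact .refl
  | tail _ e ih => exact .head ⟨e.2.1, e.1, e.2.2.symm⟩ ih

theorem W.ch (h : W Γ k u v) (hP : ∀ w, W Γ k u w → P w) : C Γ P u v := by
  obtain ⟨p, a⟩ := h
  induction p generalizing k with
  | nil => exact .refl
  | cons e p ih =>
    rw [SimpleGraph.Walk.length_cons] at a
    exact .head ⟨hP _ (.refl _ _), hP _ ((W.adj e).mono (by omega)), e⟩
      (ih (k := p.length) (fun w h => hP w (((W.adj e).trans h).mono (by omega))) le_rfl)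

theorem C.map {V' : Type} {Γ' : SimpleGraph V'} {P' : V' → Prop} {f : V → V'}
    (e : ∀ a b, P a → P b → Γ.Adj a b → C Γ' P' (f a) (f b)) (h : C Γ P u v) :
    C Γ' P' (f u) (f v) := by
  induction h with
  | refl => exact .refl
  | tail _ a ih => exact ih.trans (e _ _ a.1 a.2.1 a.2.2)

theorem C.edge {E : V → V → Prop} (e : E u v) (a : P u) (b : P v) :
    C (SimpleGraph.fromRel E) P u v := by
  by_cases h : u = v
  · exact h ▸ .refl
  · exact .single ⟨a, b, h, .inl e⟩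

end C

theorem compare {A B : Type} [MetricSpace A] [MetricSpace B] [BddGeometry A] [BddGeometry B]
    {Γ : SimpleGraph A} {Δ : SimpleGraph B} (hΓ : Γ.Connected)
    (eΓ : ∀ x y : A, dist x y = Γ.dist x y) (hΔ : Δ.Connected)
    (eΔ : ∀ x y : B, dist x y = Δ.dist x y) (h : CEquiv A B) (a₀ : A) (b₀ : B) :
    ∃ K : ℕ, ∀ (R k m : ℕ) (T : ℕ → Set A) (F : Set B) (tg : ℕ → B), (∀ i, (T i).Infinite) →
      (∀ i < k, ∀ j, ∀ u ∈ T i, ∀ v ∈ T j, C Γ (R < dist a₀ ·) u v → i = j) → F.Finite →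
      (∀ u ∉ F, ∃ c < m, C Δ ((K * (R + 1) : ℕ) < dist b₀ ·) u (tg c)) → k ≤ m := by
  obtain ⟨f, g, hf, hg, D, h1, h2⟩ := h
  obtain ⟨L, hL⟩ := hg.2 (1 : ℕ)
  obtain ⟨M, hM⟩ := hf.2 (1 : ℕ)
  have lf : ∀ {k x y}, W Γ k x y → W Δ (⌈M⌉₊ * k) (f x) (f y) := fun h =>
    h.map fun _ _ e => dist_w hΔ eΔ (hM _ _ ((dist_iff hΓ eΓ).2 (.adj e)))
  refine ⟨⌈dist b₀ (f a₀)⌉₊ + ⌈M⌉₊ * (⌈L⌉₊ + 1) + ⌈D⌉₊, fun R k m T F tg t1 t2 f1 f2 => ?_⟩
  have far : ∀ {x w : A} {n : ℕ}, ¬ W Γ (R + n) a₀ x → W Γ n x w → R < dist a₀ w :=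
    fun a b => not_le.1 fun c => a (((dist_iff hΓ eΓ).1 c).trans b.symm)
  have ex : ∀ i, ∃ x ∈ T i, f x ∉ F ∧ ¬ W Γ (R + ⌈D⌉₊) a₀ x := fun i => by
    obtain ⟨x, a, b⟩ := (t1 i).exists_notMem_finite ((f1.preimage' fun y _ => hf.fib y).union
      (finite_closedBall a₀ (R + ⌈D⌉₊ : ℕ)))
    exact ⟨x, a, fun c => b (.inl c), fun c => b (.inr (Metric.mem_closedBall'.2
      ((dist_iff hΓ eΓ).2 c)))⟩
  choose x x1 x2 x3 using ex
  choose c c1 c2 using fun i => f2 _ (x2 i)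
  have key : ∀ i, C Γ (R < dist a₀ ·) (x i) (g (tg (c i))) := fun i =>
    ((dist_w hΓ eΓ (h1 _)).symm.ch fun w => far (x3 i)).trans ((c2 i).map fun a b u _ e =>
      (dist_w hΓ eΓ (hL _ _ ((dist_iff hΔ eΔ).2 (.adj e)))).ch fun w => far fun z =>
        u.not_ge ((dist_iff hΔ eΔ).2 ((((dist_w hΔ eΔ le_rfl).trans (lf z)).trans
          (dist_w hΔ eΔ (h2 a))).mono (by
            nlinarith [Nat.zero_le (⌈M⌉₊ * ⌈L⌉₊ * R), Nat.zero_le (⌈dist b₀ (f a₀)⌉₊ * R),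
              Nat.zero_le (⌈D⌉₊ * R)]))))
  simpa using Finset.card_le_card_of_injOn (s := Finset.range k) (t := Finset.range m) c
    (fun i _ => by simpa using c1 i) fun i a j _ e =>
      t2 i (by simpa using a) j _ (x1 i) _ (x1 j) ((key i).trans (e ▸ (key j).symm))

variable {τ : Tower}

/-- The level. -/
def lv : XT τ ⊕ Hr → ℕ := Sum.elim XT.l Hr.l

/-- The index. -/
def ix : XT τ ⊕ Hr → ℕ := Sum.elim XT.n Hr.n

theorem lv_le {v w : XT τ ⊕ Hr} (h : E τ v w) : lv w ≤ lv v + 1 ∧ lv v ≤ lv w + 1 := by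
  cases h with
  | adj h => exact h.l_le.symm
  | _ => exact ⟨Nat.le_succ _, Nat.le_succ _⟩

theorem pot_nat {V : Type} {E : V → V → Prop} {F : V → ℕ} {k : ℕ} {v w : V}
    (h : ∀ v w, E v w → F w ≤ F v + 1 ∧ F v ≤ F w + 1) (a : W (SimpleGraph.fromRel E) k v w) :
    F w ≤ F v + k := by
  exact_mod_cast a.pot (F := fun v => (F v : ℝ)) fun v w e => by
    exact_mod_cast ((SimpleGraph.fromRel_adj _ _ _).1 e).2.elim (fun e => (h _ _ e).1)
      fun e => (h _ _ e).2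

/-- The graph has one end. -/
theorem one_end {S : Set (XT τ ⊕ Hr)} (hS : S.Finite) : ∃ F : Set (XT τ ⊕ Hr), F.Finite ∧
    ∀ v ∉ F, ∀ n, ∃ k ≥ n, C (G τ) (· ∉ S) v (inl (an τ 0 k)) := by
  obtain ⟨N, hN⟩ := (hS.image ix).bddAbove
  obtain ⟨L, hL⟩ := (hS.image lv).bddAbove
  have q : ∀ w, N < ix w ∨ L < lv w → w ∉ S := fun w h a =>
    h.elim (hN ⟨w, a, rfl⟩).not_gt (hL ⟨w, a, rfl⟩).not_gt
  have ed : ∀ {v w}, E τ v w → N < ix v ∨ L < lv v → N < ix w ∨ L < lv w →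
      C (G τ) (· ∉ S) v w := fun e a b => C.edge e (q _ a) (q _ b)
  have s2 : ∀ x : XT τ, N < x.n ∨ L < x.l → ∀ m, ∃ y,
      C (G τ) (· ∉ S) (inl x) (inl ⟨x.n, x.l + m, x.w, y⟩) := fun x h m => by
    induction m with
    | zero => exact ⟨x.y, .refl⟩
    | succ m ih =>
      obtain ⟨y, a⟩ := ih
      obtain ⟨z, rfl⟩ := τ.red_surjective (min_le_min_right (2 * x.n) (x.l + m).le_succ) y
      exact ⟨z, a.trans (ed (.adj (.down x.n (x.l + m) x.w z)) (h.imp id fun h => h.trans_le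
        (Nat.le_add_right _ (m + 1))) (h.imp id fun h => h.trans_le (Nat.le_add_right _ m))).symm⟩
  have s3 : ∀ x : XT τ, N < x.n ∨ L < x.l → ∀ n, ∃ k ≥ n,
      C (G τ) (· ∉ S) (inl x) (inl (an τ 0 k)) := fun x h n => by
    obtain ⟨J, hJ⟩ := w_zero τ x.n
    obtain ⟨y, a⟩ := s2 x h (L + J + n + 1)
    refine ⟨x.l + (L + J + n + 1), by omega, a.trans ((hJ ⟨x.n, _, x.w, y⟩ le_rfl).ch
      fun w b => q w (.inr ?_))⟩
    have : x.l + (L + J + n + 1) ≤ lv w + J := pot_nat (F := lv) (fun _ _ => lv_le) b.symm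
    omega
  refine ⟨{v | ix v ≤ N ∧ lv v ≤ L}, ((Finite.image inl ((finite_Iic N).biUnion fun n _ =>
    (finite_Iic L).biUnion fun l _ => finite_closedBall (an τ n l) (2 * (n + 1)))).union
    (Finite.image inr (s := {g : Hr | g.n ≤ N ∧ g.l ≤ L}) ?_)).subset ?_, ?_⟩
  · refine Finite.of_finite_image (f := fun g => (g.n, g.l, g.i))
      (((finite_Iic N).prod ((finite_Iic L).prod (finite_Iic N))).subset ?_) ?_
    · rintro _ ⟨g, h, rfl⟩
      exact ⟨h.1, h.2, g.h.trans h.1⟩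
    · rintro ⟨n, l, i, a⟩ - ⟨n', l', i', a'⟩ - h
      cases h
      rfl
  · rintro (x | g) h
    · exact .inl ⟨x, mem_biUnion h.1 (mem_biUnion h.2 (dist_same_level (x := x) rfl rfl)), rfl⟩
    · exact .inr ⟨g, h, rfl⟩
  · rintro (x | ⟨n, l, i, a⟩) h m <;> replace h := (not_and_or.1 h).imp not_le.1 not_le.1
    · exact s3 x h m
    · refine (s3 (an τ n l) h m).imp fun k b => ⟨b.1, ReflTransGen.trans ?_ b.2⟩
      induction i with
      | zero => exact (ed (.fst n l) h h).symm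
      | succ i ih => exact (ed (.mid n l i a) h h).symm.trans (ih _ h)

/-- The edges of the graph with rays attached at the places `p j`. -/
inductive E' (τ : Tower) (p : ℕ → ℕ) : (XT τ ⊕ Hr) ⊕ ℕ × ℕ → (XT τ ⊕ Hr) ⊕ ℕ × ℕ → Prop
  | old {v w : XT τ ⊕ Hr} : E τ v w → E' τ p (inl v) (inl w)
  | fst (j : ℕ) : E' τ p (inl (inl (an τ 0 (p j)))) (inr (j, 0))
  | mid (j i : ℕ) : E' τ p (inr (j, i)) (inr (j, i + 1))

/-- The graph with rays attached. -/
abbrev G' (τ : Tower) (p : ℕ → ℕ) : SimpleGraph ((XT τ ⊕ Hr) ⊕ ℕ × ℕ) :=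
  SimpleGraph.fromRel (E' τ p)

variable {p : ℕ → ℕ}

theorem w_old {k : ℕ} {v w : XT τ ⊕ Hr} (h : W (G τ) k v w) : W (G' τ p) (1 * k) (inl v) (inl w) :=
  h.map fun _ _ e => ((SimpleGraph.fromRel_adj _ _ _).1 e).2.elim (fun e => .edge (.old e))
    fun e => (W.edge (.old e)).symm

theorem w_ray (k : ℕ) : W (G τ) k (inl (an τ 0 0)) (inl (an τ 0 k)) := by
  induction k with
  | zero => exact .refl _ _
  | succ k ih => exact ih.trans (W.edge (.adj (adj_an 0 k))).symm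

theorem conn' (τ : Tower) (p : ℕ → ℕ) : (G' τ p).Connected := by
  refine conn_of (inl (inl (an τ 0 0))) ?_
  rintro (v | ⟨j, i⟩)
  · exact ⟨_, w_old ((w_iff (conn τ)).1 le_rfl)⟩
  · induction i with
    | zero => exact ⟨_, (w_old (w_ray _)).trans (.edge (.fst j))⟩
    | succ i ih => exact ih.elim fun k h => ⟨_, h.trans (.edge (.mid j i))⟩

theorem deg' (τ : Tower) (hp : StrictMono p) :
    ∃ N : ℕ, ∀ v, ((G' τ p).neighborSet v).encard ≤ N := by
  obtain ⟨N, hN⟩ := deg τ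
  refine ⟨N + 3, ?_⟩
  rintro (v | ⟨j, i⟩)
  · refine (encard_le_encard (t := inl '' (G τ).neighborSet v ∪
      (fun j => inr (j, 0)) '' {j | inl (an τ 0 (p j)) = v}) ?_).trans ((encard_union_le _ _).trans
      ((add_le_add ((encard_image_le _ _).trans (hN v)) ((encard_image_le _ _).trans
      (encard_le_one_iff_subsingleton.2 fun a h b h' => hp.injective
        (show lv (inl (an τ 0 (p a))) = lv (inl (an τ 0 (p b))) from
          congrArg lv (h.trans h'.symm))))).trans (by norm_cast; omega)))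
    rintro w ⟨a, e | e⟩ <;> cases e
    exacts [.inl ⟨_, ⟨fun h => a (h ▸ rfl), .inl ‹_›⟩, rfl⟩, .inr ⟨_, rfl, rfl⟩,
      .inl ⟨_, ⟨fun h => a (h ▸ rfl), .inr ‹_›⟩, rfl⟩]
  · refine (encard_le_encard (t := insert (inr (j, i + 1)) (insert (inr (j, i - 1))
      {inl (inl (an τ 0 (p j)))})) ?_).trans ((encard_insert_le _ _).trans ((add_le_add_left
      ((encard_insert_le _ _).trans_eq (by rw [encard_singleton])) _).trans (by norm_cast; omega)))
    rintro w ⟨-, e | e⟩ <;> cases e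
    exacts [.inl rfl, .inr (.inr rfl), .inr (.inl rfl)]

theorem tooth {P : (XT τ ⊕ Hr) ⊕ ℕ × ℕ → Prop} {j i : ℕ} {v : (XT τ ⊕ Hr) ⊕ ℕ × ℕ}
    (h : C (G' τ p) P (inr (j, i)) v) (a : ¬ P (inl (inl (an τ 0 (p j))))) :
    ∃ i', v = inr (j, i') := by
  induction h with
  | refl => exact ⟨i, rfl⟩
  | tail _ e ih =>
    obtain ⟨i', rfl⟩ := ih
    obtain ⟨-, b, -, e | e⟩ := e <;> cases e
    exacts [⟨_, rfl⟩, absurd b a, ⟨_, rfl⟩]

theorem few {R J : ℕ} (hJ : ∀ j, p j ≤ R → j < J) :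
    ∃ (F : Set ((XT τ ⊕ Hr) ⊕ ℕ × ℕ)) (tg : ℕ → (XT τ ⊕ Hr) ⊕ ℕ × ℕ), F.Finite ∧ ∀ u ∉ F,
      ∃ c < J + 1, C (G' τ p) (R < (G' τ p).dist (inl (inl (an τ 0 0))) ·) u (tg c) := by
  let l : (XT τ ⊕ Hr) ⊕ ℕ × ℕ → ℕ := Sum.elim lv fun q => p q.1 + q.2 + 1
  have q : ∀ u, R < l u → R < (G' τ p).dist (inl (inl (an τ 0 0))) u := fun u h => by
    have : l u ≤ 0 + _ := pot_nat (F := l) (fun v w e => by
      cases e with
      | old e => exact lv_le e
      | fst j => exact ⟨le_rfl, show p j ≤ p j + 0 + 1 + 1 by omega⟩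
      | mid j i => exact ⟨le_rfl, show p j + i + 1 ≤ p j + (i + 1) + 1 + 1 by omega⟩)
      ((w_iff (conn' τ p)).1 (le_refl ((G' τ p).dist (inl (inl (an τ 0 0))) u)))
    omega
  have ed : ∀ {v w}, E' τ p v w → R < l v → R < l w →
      C (G' τ p) (R < (G' τ p).dist (inl (inl (an τ 0 0))) ·) v w :=
    fun e a b => C.edge e (q _ a) (q _ b)
  have ray : ∀ k ≥ R + 1, C (G' τ p) (R < (G' τ p).dist (inl (inl (an τ 0 0))) ·)
      (inl (inl (an τ 0 k))) (inl (inl (an τ 0 (R + 1)))) := fun k h => by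
    induction h with
    | refl => exact .refl
    | @step k h ih => exact (ed (.old (.adj (adj_an 0 k))) (Nat.le_succ_of_le h) h).trans ih
  have tt : ∀ j n i, R < p j + n + 1 → C (G' τ p) (R < (G' τ p).dist (inl (inl (an τ 0 0))) ·)
      (inr (j, n + i)) (inr (j, n)) := fun j n i h => by
    induction i with
    | zero => exact .refl
    | succ i ih => exact (ed (.mid j (n + i)) (show R < p j + (n + i) + 1 by omega)
        (show R < p j + (n + i + 1) + 1 by omega)).symm.trans ih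
  obtain ⟨N, hN⟩ : ∃ N : ℕ, ∀ v, ((G' τ p).dist (inl (inl (an τ 0 0))) (inl v) ≤ R) →
      dist (inl (an τ 0 0) : XT τ ⊕ Hr) v ≤ N := ⟨_, fun v h => (dist_iff (conn τ)
    fun _ _ => rfl).2 (((w_iff (conn' τ p)).1 h).map (c := 1)
      (f := Sum.elim id fun q => inl (an τ 0 (p q.1))) fun v w e => by
      obtain ⟨-, e | e⟩ := e <;> cases e
      exacts [.edge ‹_›, .refl _ _, .refl _ _, (W.edge ‹_›).symm, .refl _ _, .refl _ _])⟩
  obtain ⟨F, f1, f2⟩ := one_end (finite_closedBall (inl (an τ 0 0) : XT τ ⊕ Hr) N)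
  refine ⟨inl '' F ∪ inr '' (Iio J ×ˢ Iio R), fun c => if c < J then inr (c, R) else
    inl (inl (an τ 0 (R + 1))), (f1.image _).union (((finite_Iio J).prod (finite_Iio R)).image _),
    ?_⟩
  rintro (v | ⟨j, i⟩) h
  · obtain ⟨k, a, b⟩ := f2 v (fun e => h (.inl ⟨v, e, rfl⟩)) (R + 1)
    refine ⟨J, J.lt_succ_self, ?_⟩
    simp only [lt_irrefl, if_false]
    refine ReflTransGen.trans (b.map (f := inl) fun v w c d e => ?_) (ray k a)
    have z := fun v (c : v ∉ Metric.closedBall (inl (an τ 0 0) : XT τ ⊕ Hr) N) =>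
      not_le.1 fun e => c (Metric.mem_closedBall'.2 (hN v e))
    obtain ⟨-, e | e⟩ := e
    exacts [C.edge (E'.old e) (z v c) (z w d), C.symm (C.edge (E'.old e) (z w d) (z v c))]
  · by_cases e : j < J
    · obtain ⟨n, rfl⟩ := Nat.exists_eq_add_of_le
        (not_lt.1 fun a : i < R => h (.inr ⟨(j, i), ⟨e, a⟩, rfl⟩))
      exact ⟨j, by omega, by simp only [if_pos e]; exact tt j R n (by omega)⟩
    · have a : R < p j := not_le.1 fun a => e (hJ j a)
      refine ⟨J, J.lt_succ_self, ?_⟩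
      simp only [lt_irrefl, if_false]
      rw [← zero_add i]
      exact ((tt j 0 i (by omega)).trans (ed (.fst j) a
        (show R < p j + 0 + 1 by omega)).symm).trans (ray _ a)

/-- The places of the rays. -/
noncomputable def pl (a : ℝ) (j : ℕ) : ℕ := 2 ^ ⌊a * j⌋₊

theorem pl_mono {a : ℝ} (h : 1 ≤ a) : StrictMono (pl a) := strictMono_nat_of_lt_succ fun j => by
  refine Nat.pow_lt_pow_right one_lt_two (Nat.lt_of_succ_le ?_)
  rw [Nat.succ_eq_add_one, ← Nat.floor_add_one (by positivity)]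
  exact Nat.floor_le_floor (by push_cast; linarith)

theorem comb (τ : Tower) (hp : StrictMono p) : letI := gm (conn' τ p)
    ∃ N, IsGraph 0 N ((XT τ ⊕ Hr) ⊕ ℕ × ℕ) ∧ Ray ((XT τ ⊕ Hr) ⊕ ℕ × ℕ) ∧
      Retract (XT τ ⊕ Hr) ((XT τ ⊕ Hr) ⊕ ℕ × ℕ) := by
  let _ := gm (conn' τ p)
  obtain ⟨N, hN⟩ := deg' τ hp
  have g : IsGraph 0 N ((XT τ ⊕ Hr) ⊕ ℕ × ℕ) :=
    ⟨_, conn' τ p, fun v => ⟨by simp, hN v⟩, fun _ _ => rfl⟩
  have := g.bdd
  have d := fun {k u v} (h : W (G' τ p) k u v) => (dist_iff (conn' τ p) fun _ _ => rfl).2 h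
  refine ⟨N, g, ⟨fun k => inl (inl (an τ 0 k)), fun a b h => congrArg lv (inl_injective h), _,
    fun k => d (W.edge (.old (.adj (adj_an 0 k)))).symm⟩, inl,
    Sum.elim id fun q => inl (an τ 0 (p q.1 + q.2)), coarse_of (fun v =>
      (finite_singleton v).preimage inl_injective.injOn) fun r => ⟨_, fun u v h =>
      d (w_old (dist_w (conn τ) (fun _ _ => rfl) h))⟩, coarse_of (fun v => ?_) fun r =>
      ⟨_, fun u v h => (dist_iff (conn τ) fun _ _ => rfl).2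
        ((dist_w (conn' τ p) (fun _ _ => rfl) h).map (c := 1) fun u v e => ?_)⟩, 0,
    fun v => (dist_self v).le⟩
  · refine ((finite_singleton (inl v)).union (((finite_Iic (lv v)).prod
      (finite_Iic (lv v))).image inr)).subset ?_
    rintro (w | ⟨j, i⟩) h
    · exact .inl (congrArg inl h)
    · have : p j + i = lv v := congrArg lv h
      exact .inr ⟨(j, i), ⟨(hp.id_le j).trans (show p j ≤ _ by omega), show i ≤ _ by omega⟩, rfl⟩
  · obtain ⟨-, e | e⟩ := e <;> cases e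
    exacts [.edge ‹_›, .refl _ _, (W.edge (.adj (adj_an 0 _))).symm, (W.edge ‹_›).symm, .refl _ _,
      .edge (.adj (adj_an 0 _))]

theorem family (τ : Tower) : ∃ (Y : ℝ → Type) (_ : ∀ t, MetricSpace (Y t)),
    (∀ t, ∃ N, IsGraph 0 N (Y t) ∧ Ray (Y t) ∧ Retract (XT τ ⊕ Hr) (Y t)) ∧
    ∀ s t, s < t → ¬ CEquiv (Y s) (Y t) := by
  have one : ∀ t, 1 ≤ 1 + Real.exp t := fun t => le_add_of_nonneg_right (Real.exp_pos t).le
  refine ⟨fun _ => (XT τ ⊕ Hr) ⊕ ℕ × ℕ, fun t => gm (conn' τ (pl (1 + Real.exp t))),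
    fun t => comb τ (pl_mono (one t)), fun s t h e => ?_⟩
  beta_reduce at e
  replace h : 1 + Real.exp s < 1 + Real.exp t := add_lt_add_right (Real.exp_lt_exp.2 h) 1
  have ha := one s
  generalize 1 + Real.exp s = a at *
  generalize 1 + Real.exp t = b at *
  obtain ⟨_, g, -⟩ := comb τ (pl_mono ha)
  obtain ⟨_, g', -⟩ := comb τ (pl_mono (ha.trans h.le))
  obtain ⟨K, hK⟩ := @compare _ _ (gm (conn' τ (pl a))) (gm (conn' τ (pl b)))
    (@IsGraph.bdd _ _ (_) _ g) (@IsGraph.bdd _ _ (_) _ g') _ _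
    (conn' τ _) (fun _ _ => rfl) (conn' τ _) (fun _ _ => rfl) e (inl (inl (an τ 0 0)))
    (inl (inl (an τ 0 0)))
  obtain ⟨k, hk⟩ := exists_nat_gt ((K + 2 + 2 * b) / (b - a))
  have b0 : 0 < b := by linarith
  obtain ⟨F, tg, f1, f2⟩ := few (τ := τ) (p := pl b) (R := K * (pl a k + 1))
    (J := ⌈(a * k + K + 2) / b⌉₊) fun j hj => by
      have u : 2 ^ ⌊b * j⌋₊ ≤ 2 ^ (K + (⌊a * k⌋₊ + 1)) := by
        rw [pow_add, pow_succ]
        exact hj.trans (Nat.mul_le_mul Nat.lt_two_pow_self.le (by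
          have := Nat.one_le_two_pow (n := ⌊a * k⌋₊); unfold pl; omega))
      have v : (⌊b * j⌋₊ : ℝ) ≤ K + (⌊a * k⌋₊ + 1) := by
        exact_mod_cast (Nat.pow_le_pow_iff_right one_lt_two).1 u
      rw [Nat.lt_ceil, lt_div_iff₀ b0]
      linarith [Nat.lt_floor_add_one (b * j), Nat.floor_le (show 0 ≤ a * k by positivity)]
  have := hK (pl a k) k _ (fun j => range fun i => inr (j, i)) F tg (fun j =>
    infinite_range_of_injective fun _ _ h => (Prod.mk.inj (inr_injective h)).2) (by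
      rintro i hi j _ ⟨n, rfl⟩ _ ⟨m, rfl⟩ c
      obtain ⟨_, u⟩ := tooth c (not_lt.2 (Nat.cast_le.2 (((w_iff (conn' τ _)).2
        (w_old (w_ray _))).trans ((one_mul _).trans_le ((pl_mono ha).monotone hi.le)))))
      exact (Prod.mk.inj (inr_injective u)).1.symm) f1 fun u h => (f2 u h).imp fun c x =>
        ⟨x.1, C.map (f := id) (fun _ _ y z a => .single ⟨Nat.cast_lt.2 y, Nat.cast_lt.2 z, a⟩) x.2⟩
  have u : (k : ℝ) ≤ ⌈(a * k + K + 2) / b⌉₊ + 1 := by exact_mod_cast this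
  have v := Nat.ceil_lt_add_one (show 0 ≤ (a * k + K + 2) / b by positivity)
  have w : (k - 2 : ℝ) < (a * k + K + 2) / b := by linarith
  rw [lt_div_iff₀ b0] at w
  rw [div_lt_iff₀ (by linarith)] at hk
  linarith

end Vale.Agent.N212R
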