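import Vale.Agent.N212R.Walk

/-! The connected graph: the components of the model space are joined by long paths. -/

namespace Vale.Agent.N212R

open Vale.Agent.P212 Vale.Agent.P212Z Set Sum

/-- The interior points of the paths. -/
structure Hr where
  n : ℕ
  l : ℕ
  i : ℕ
  h : i ≤ n

variable {τ : Tower}

/-- The end points of the paths. -/
def an (τ : Tower) (n l : ℕ) : XT τ := ⟨n, l, 0, 1⟩

/-- The edges. -/
inductive E (τ : Tower) : XT τ ⊕ Hr → XT τ ⊕ Hr → Prop
  | adj {x x' : XT τ} : Adj x x' → E τ (inl x) (inl x')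
  | fst (n l : ℕ) : E τ (inl (an τ n l)) (inr ⟨n, l, 0, n.zero_le⟩)
  | mid (n l i : ℕ) (h : i < n) : E τ (inr ⟨n, l, i, h.le⟩) (inr ⟨n, l, i + 1, h⟩)
  | lst (n l : ℕ) : E τ (inr ⟨n, l, n, le_rfl⟩) (inl (an τ (n + 1) l))

/-- The graph. -/
abbrev G (τ : Tower) : SimpleGraph (XT τ ⊕ Hr) := SimpleGraph.fromRel (E τ)

theorem deg (τ : Tower) : ∃ N : ℕ, ∀ v, ((G τ).neighborSet v).encard ≤ N := by
  obtain ⟨C, hC⟩ := τ.step
  have p : ∀ a b : XT τ ⊕ Hr, ({a, b} : Set _).encard ≤ 2 := fun a b =>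
    (encard_insert_le _ _).trans_eq (by rw [encard_singleton]; rfl)
  refine ⟨6 + 1 + (5 + max C 1 + 1), ?_⟩
  rintro (x | ⟨n, l, i, h⟩)
  · refine (deg_le (a := 6 + 1) (b := (5 + max C 1 : ℕ) + 1) _ ?_ ?_).trans_eq (by norm_cast)
    · refine (encard_le_encard (t := insert (inr ⟨x.n, x.l, 0, Nat.zero_le _⟩)
        (inl '' {y | Adj x y})) fun w h => ?_).trans ((encard_insert_le _ _).trans
        (add_le_add_left ((encard_image_le _ _).trans (encard_adj x)) _))
      cases h with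
      | adj h => exact .inr ⟨_, h, rfl⟩
      | fst => exact .inl rfl
    · refine (encard_le_encard (t := insert (inr ⟨x.n - 1, x.l, x.n - 1, le_rfl⟩)
        (inl '' {y | Adj y x})) fun w h => ?_).trans ((encard_insert_le _ _).trans
        (add_le_add_left ((encard_image_le _ _).trans (encard_adj' hC x)) _))
      cases h with
      | adj h => exact .inr ⟨_, h, rfl⟩
      | lst => exact .inl rfl
  · refine (deg_le _ ((encard_le_encard fun w e => ?_).trans
      (p (inr ⟨n, l, min (i + 1) n, min_le_right _ _⟩) (inl (an τ (n + 1) l))))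
      ((encard_le_encard fun w e => ?_).trans
      (p (inr ⟨n, l, i - 1, by omega⟩) (inl (an τ n l))))).trans (by norm_cast; omega)
    · cases e with
      | mid _ _ _ h => exact .inl (by congr 2; omega)
      | lst => exact .inr rfl
    · cases e with
      | mid => exact .inl rfl
      | fst => exact .inr rfl

theorem w_left (n l i : ℕ) (h : i ≤ n) : W (G τ) (i + 1) (inl (an τ n l)) (inr ⟨n, l, i, h⟩) := by
  induction i with
  | zero => exact .edge (.fst n l)
  | succ i ih => exact (ih (Nat.le_of_succ_le h)).trans (.edge (.mid n l i h))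

theorem w_right (n l k i : ℕ) (h : i ≤ n) (e : i + k = n) :
    W (G τ) (k + 1) (inr ⟨n, l, i, h⟩) (inl (an τ (n + 1) l)) := by
  induction k generalizing i with
  | zero => subst e; exact .edge (.lst _ l)
  | succ k ih =>
    exact ((W.edge (.mid n l i (by omega))).trans (ih (i + 1) _ (by omega))).mono (by omega)

theorem w_gen (v : F3) : ∃ k, ∀ n l w y,
    W (G τ) k (inl ⟨n, l, w, y⟩) (inl ⟨n, l, w, y * QuotientGroup.mk v⟩) := by
  induction v using FreeGroup.induction_on with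
  | C1 => exact ⟨0, fun n l w y => by rw [QuotientGroup.mk_one, mul_one]; exact .refl _ _⟩
  | of i => exact ⟨1, fun n l w y => .edge (.adj (.gen n l w y i))⟩
  | inv_of i ih =>
    refine ih.imp fun k h n l w y => ?_
    have := (h n l w (y * QuotientGroup.mk (FreeGroup.of i)⁻¹)).symm
    rwa [QuotientGroup.mk_inv, inv_mul_cancel_right] at this
  | mul a b ha hb =>
    obtain ⟨k, h⟩ := ha
    obtain ⟨m, h'⟩ := hb
    exact ⟨k + m, fun n l w y => by
      rw [QuotientGroup.mk_mul, ← mul_assoc]; exact (h n l w y).trans (h' n l w _)⟩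

theorem w_tor (n l k m : ℕ) (a b : ZMod (n + 1)) (y : τ.G (min l (2 * n))) :
    ∃ y', W (G τ) (k + m) (inl ⟨n, l, (a, b), y⟩) (inl ⟨n, l, (a + k, b + m), y'⟩) := by
  induction m with
  | zero =>
    induction k with
    | zero => exact ⟨y, by simpa using W.refl _ _⟩
    | succ k ih =>
      obtain ⟨y', h⟩ := ih
      rw [Nat.cast_succ, ← add_assoc a]
      exact ⟨_, h.trans (.edge (.adj (.stepx n l _ y')))⟩
  | succ m ih =>
    obtain ⟨y', h⟩ := ih
    rw [Nat.cast_succ, ← add_assoc b]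
    exact ⟨_, h.trans (.edge (.adj (.stepy n l _ y')))⟩

theorem w_lev (τ : Tower) (n : ℕ) :
    ∃ K, ∀ l w y, W (G τ) K (inl ⟨n, l, w, y⟩) (inl (an τ n l)) := by
  choose k hk using w_gen (τ := τ)
  obtain ⟨B, hB⟩ := (finite_range fun g : τ.G (2 * n) => k g.out).bddAbove
  refine ⟨n + n + B, fun l ⟨a, b⟩ y => ?_⟩
  obtain ⟨y', h⟩ := w_tor n l (-a).val (-b).val a b y
  rw [ZMod.natCast_zmod_val, ZMod.natCast_zmod_val, add_neg_cancel, add_neg_cancel] at h
  obtain ⟨g, rfl⟩ := τ.red_surjective (min_le_right l (2 * n)) y'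
  have e := (hk g.out n l 0 1).symm
  rw [one_mul, ← τ.red_mk (min_le_right l (2 * n)), QuotientGroup.out_eq'] at e
  exact (h.trans e).mono (add_le_add (add_le_add (Nat.lt_succ_iff.1 (ZMod.val_lt _))
    (Nat.lt_succ_iff.1 (ZMod.val_lt _))) (hB ⟨g, rfl⟩))

theorem w_zero (τ : Tower) (k : ℕ) :
    ∃ J, ∀ x : XT τ, x.n ≤ k → W (G τ) J (inl x) (inl (an τ 0 x.l)) := by
  have a : ∀ n, ∃ c, ∀ l, W (G τ) c (inl (an τ n l)) (inl (an τ 0 l)) := fun n => by
    induction n with
    | zero => exact ⟨0, fun l => .refl _ _⟩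
    | succ n ih =>
      obtain ⟨c, h⟩ := ih
      exact ⟨_, fun l => ((w_left n l n le_rfl).trans (.edge (.lst n l))).symm.trans (h l)⟩
  choose c hc using a
  choose K hK using w_lev τ
  exact ⟨(Finset.range (k + 1)).sup fun n => K n + c n, fun x h =>
    ((hK x.n x.l x.w x.y).trans (hc x.n x.l)).mono
      (Finset.le_sup (f := fun n => K n + c n) (Finset.mem_range.2 (Nat.lt_succ_of_le h)))⟩

theorem w_reach (τ : Tower) (k : ℕ) :
    ∃ K, ∀ x x' : XT τ, Reach k x x' → W (G τ) K (inl x) (inl x') := by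
  obtain ⟨J, hJ⟩ := w_zero τ k
  have key : ∀ m (x x' : XT τ), Reach m x x' → m ≤ k →
      W (G τ) (m * (J + J + 1)) (inl x) (inl x') := by
    intro m x x' h
    induction h with
    | refl => exact fun _ => .refl _ _
    | @step a b x y z _ c ih =>
      intro e
      refine ((ih (by omega)).trans (m := J + J + 1) ?_).mono (by nlinarith [c.pos])
      rcases c with ⟨-, c | c⟩ | ⟨-, c, d⟩
      · exact (W.edge (.adj c)).mono (by omega)
      · exact (W.edge (.adj c)).symm.mono (by omega)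
      · exact ((hJ y (by omega)).trans (c ▸ (hJ z (by omega)).symm)).mono (by omega)
  exact ⟨_, fun x x' h => key k x x' h le_rfl⟩

theorem conn (τ : Tower) : (G τ).Connected := by
  have a : ∀ x, ∃ k, W (G τ) k (inl (an τ 0 0)) (inl x) := fun x => by
    obtain ⟨k, h⟩ := exists_reach (an τ 0 0) x
    exact (w_reach τ k).imp fun _ b => b _ _ h
  refine conn_of (inl (an τ 0 0)) ?_
  rintro (x | ⟨n, l, i, h⟩)
  · exact a x
  · obtain ⟨k, b⟩ := a (an τ n l)
    exact ⟨_, b.trans (w_left n l i h)⟩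

theorem dist_le_w {k : ℕ} {x y : XT τ} (h : W (G τ) k (inl x) (inl y)) : dist x y ≤ k := by
  let F : XT τ ⊕ Hr → ℝ := Sum.elim (dist x) fun g =>
    min (dist x (an τ g.n g.l) + (g.i + 1)) (dist x (an τ (g.n + 1) g.l) + (g.n + 1 - g.i))
  have j : ∀ n l, dist (an τ n l) (an τ (n + 1) l) ≤ n + 1 := fun n l => by
    simpa [an] using dist_diff_le (x := an τ n l) (x' := an τ (n + 1) l) (by simp [an]) rfl
  have key : ∀ v w, E τ v w → F w ≤ F v + 1 ∧ F v ≤ F w + 1 := by
    intro v w e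
    cases e with
    | @adj y z e =>
      have : dist y z ≤ (1 : ℕ) := dist_le_iff_reach.2 (.of_adj e)
      have := dist_triangle x y z
      have := dist_triangle_right x y z
      simp only [F, Sum.elim_inl]
      constructor <;> push_cast at * <;> linarith
    | fst n l =>
      have := j n l
      have := dist_triangle_right x (an τ n l) (an τ (n + 1) l)
      simp only [F, Sum.elim_inl, Sum.elim_inr, ← min_add_add_right, min_le_iff, le_min_iff]
      push_cast
      exact ⟨.inl (by linarith), by linarith, by linarith⟩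
    | mid n l i h =>
      simp only [F, Sum.elim_inr, ← min_add_add_right]
      push_cast
      constructor <;> exact min_le_min (by linarith) (by linarith)
    | lst n l =>
      have := j n l
      have := dist_triangle x (an τ n l) (an τ (n + 1) l)
      simp only [F, Sum.elim_inl, Sum.elim_inr, ← min_add_add_right, min_le_iff, le_min_iff]
      exact ⟨⟨by linarith, by linarith⟩, .inr (by linarith)⟩
  have := h.pot (F := F) fun v w e => ((SimpleGraph.fromRel_adj _ _ _).1 e).2.elim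
    (fun e => (key _ _ e).1) fun e => (key _ _ e).2
  simpa [F] using this

theorem w_hair {m n l i : ℕ} {h : i ≤ n} {v : XT τ ⊕ Hr} (a : W (G τ) m (inr ⟨n, l, i, h⟩) v)
    (b : m ≤ i) (c : m + i ≤ n) :
    ∃ i' h', v = inr ⟨n, l, i', h'⟩ ∧ i ≤ i' + m ∧ i' ≤ i + m := by
  induction m generalizing i with
  | zero =>
    obtain ⟨p, a⟩ := a
    exact ⟨i, h, (p.eq_of_length_eq_zero (Nat.le_zero.1 a)).symm, le_rfl, le_rfl⟩
  | succ m ih =>
    obtain ⟨p | ⟨⟨_, e | e⟩, p⟩, a⟩ := a
    · exact ⟨i, h, rfl, by omega, by omega⟩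
    all_goals
      cases e with
      | mid =>
        obtain ⟨i', h', u, v, w⟩ := ih ⟨p, Nat.le_of_succ_le_succ a⟩ (by omega) (by omega)
        exact ⟨i', h', u, by omega, by omega⟩
      | _ => omega

/-- The nearest end point. -/
def rho (τ : Tower) : XT τ ⊕ Hr → XT τ :=
  Sum.elim id fun g => if 2 * g.i ≤ g.n then an τ g.n g.l else an τ (g.n + 1) g.l

/-- The points deep inside a long path. -/
def Deep (m : ℕ) : XT τ ⊕ Hr → Prop :=
  Sum.elim (fun _ => False) fun g => m ≤ g.i ∧ m + g.i ≤ g.n ∧ 6 * m ≤ g.n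

/-- Going up `k` levels. -/
def up (x : XT τ) : ℕ → XT τ
  | 0 => x
  | k + 1 => an τ x.n (x.l + (k + 1))

theorem up_an (n l k : ℕ) : up (an τ n l) k = an τ n (l + k) := by cases k <;> rfl

theorem adj_an (n l : ℕ) : Adj (an τ n (l + 1)) (an τ n l) := by
  have := Adj.down (τ := τ) n l 0 1
  rwa [map_one] at this

theorem w_rho {m : ℕ} {v : XT τ ⊕ Hr} (h : ¬ Deep m v) :
    W (G τ) (3 * m + 1) v (inl (rho τ v)) := by
  rcases v with x | ⟨n, l, i, a⟩
  · exact .refl _ _
  · simp only [Deep, rho, Sum.elim_inr] at h ⊢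
    split_ifs with e
    · exact (w_left n l i a).symm.mono (by omega)
    · exact (w_right n l (n - i) i a (by omega)).mono (by omega)

theorem fib_rho : Fib (rho τ) := fun x => by
  refine ((finite_singleton (inl x)).union (Finite.image inr
    (s := {g : Hr | g.n ≤ x.n ∧ g.l = x.l}) ?_)).subset ?_
  · refine Finite.of_finite_image (f := fun g => (g.n, g.i))
      (((finite_Iic x.n).prod (finite_Iic x.n)).subset ?_) ?_
    · rintro _ ⟨g, h, rfl⟩
      exact ⟨h.1, g.h.trans h.1⟩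
    · rintro ⟨n, l, i, a⟩ ⟨-, rfl⟩ ⟨n', l', i', a'⟩ ⟨-, rfl⟩ h
      cases h
      rfl
  · rintro (y | g) h
    · exact .inl (congrArg inl h)
    · refine .inr ⟨g, ?_, rfl⟩
      obtain rfl : rho τ (inr g) = x := h
      simp only [rho, Sum.elim_inr]
      split_ifs
      exacts [⟨le_rfl, rfl⟩, ⟨Nat.le_succ _, rfl⟩]

theorem fib_up (k : ℕ) : Fib fun x : XT τ => up x k := fun y => by
  cases k with
  | zero => exact finite_singleton y
  | succ k =>
    refine (finite_closedBall (an τ y.n (y.l - (k + 1))) (2 * (y.n + 1))).subset fun x h => ?_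
    obtain rfl : up x (k + 1) = y := h
    exact dist_same_level (x := x) rfl (Nat.add_sub_cancel _ _).symm

noncomputable instance : MetricSpace (XT τ ⊕ Hr) := gm (conn τ)

instance : BddGeometry (XT τ ⊕ Hr) := by
  obtain ⟨N, hN⟩ := deg τ
  exact IsGraph.bdd (m := 0) ⟨_, conn τ, fun v => ⟨by simp, hN v⟩, fun _ _ => rfl⟩

theorem hair (τ : Tower) : Det τ (XT τ ⊕ Hr) := by
  have d := fun {v w : XT τ ⊕ Hr} {r : ℝ} (h : dist v w ≤ r) => dist_w (conn τ) (fun _ _ => rfl) h
  have d' := fun {v w : XT τ ⊕ Hr} {k : ℕ} (h : W (G τ) k v w) =>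
    (dist_iff (conn τ) fun _ _ => rfl).2 h
  refine ⟨inl, fun v => (finite_singleton v).preimage inl_injective.injOn, fun r => ?_,
    fun s => ⟨_, fun x y h => dist_le_w (d h)⟩, fun s hs => ?_⟩
  · obtain ⟨K, h⟩ := w_reach τ ⌈r⌉₊
    exact ⟨K, fun x y a => d' (h x y (dist_le_iff_reach.1 (a.trans (Nat.le_ceil r))))⟩
  have ht : (2 : ℝ) ≤ (3 * ⌈s⌉₊ + 1 + ⌈s⌉₊ + (3 * ⌈s⌉₊ + 1) : ℕ) := by norm_cast; omega
  obtain ⟨ψ, hψ⟩ := escape (η := Deep ⌈s⌉₊) (f := fun k v => up (rho τ v) k) (r := s)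
    (s := (3 * ⌈s⌉₊ + 1 + ⌈s⌉₊ + (3 * ⌈s⌉₊ + 1) : ℕ)) (fun k => fib_rho.comp (fib_up k))
    (fun y => ⟨y.l + 1, by
      rintro (_ | k) v rfl
      exacts [Nat.succ_pos _, Nat.lt_succ_of_le (Nat.le_add_left _ _)]⟩)
    (fun v w a b c => dist_le_w (((w_rho a).symm.trans (d c)).trans (w_rho b))) (by
      rintro (x | ⟨n, l, i, h⟩) v₁ v v' k k' a b c e e' u u'
      · exact a.elim
      obtain ⟨a1, a2, a3⟩ : ⌈s⌉₊ ≤ i ∧ ⌈s⌉₊ + i ≤ n ∧ 6 * ⌈s⌉₊ ≤ n := a
      obtain ⟨i₁, _, rfl, p1, q1⟩ := w_hair (d c) a1 a2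
      obtain ⟨i₂, _, rfl, p2, q2⟩ := w_hair (d e) a1 a2
      obtain ⟨i₃, _, rfl, p3, q3⟩ := w_hair (d e') a1 a2
      have z : ∀ n, dist (up (an τ n l) k) (up (an τ n l) k') ≤ 1 := fun n => by
        have o := fun l => dist_le_iff_reach.2 (Reach.of_adj (adj_an (τ := τ) n l))
        rw [up_an, up_an]
        obtain rfl | rfl | rfl : k = k' ∨ k = k' + 1 ∨ k' = k + 1 := by omega
        · simp
        · exact_mod_cast o (l + k')
        · rw [dist_comm]; exact_mod_cast o (l + k)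
      simp only [Deep, rho, Sum.elim_inr] at b ⊢
      split_ifs
      all_goals first | omega | exact (z _).trans (one_le_two.trans ht))
  refine ⟨_, ht, ψ, fun χ hχ c => ?_⟩
  rw [Ind.uniq (f := id) (fun x y h => h.trans ht) (ψ := χ.comp ψ) (fun g p q e => ?_)
    (ind_res ht)]
  obtain ⟨q', e'⟩ := exists_rp hs p
  refine (hχ _ p q' e').trans (hψ g q' q (fun v hv => ?_) (by
    rw [e, e', ← Finsupp.mapDomain_comp]; rfl))
  obtain ⟨x, -, rfl⟩ := md_ne (e' ▸ Finsupp.mem_support_iff.1 hv)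
  exact id

end Vale.Agent.N212R
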