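import Vale.Agent.N212R.Ends

/-! The pieces put together. -/

namespace Vale.Agent.N212R

open Vale.Agent.P212 Vale.Agent.P212Z

theorem main :
    (∀ d ≥ 3, ∃ (X : ℝ → Type) (_ : ∀ t, MetricSpace (X t)) (_ : ∀ t, BddGeometry (X t)),
      (∀ t, UnifDiscrete (X t) ∧ Fails (X t) ∧ IsGraph d d (X t) ∧
        ∀ (Y : Type) [MetricSpace Y] [BddGeometry Y], Retract (X t) Y → Fails Y) ∧
      ∀ s t, s ≠ t → ¬ CEquiv (X s) (X t)) ∧
    ∀ (Z : Type) [MetricSpace Z] (N d : ℕ), IsGraph 0 N Z → N < d → 3 < d →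
      ∃ (Y : Type) (_ : MetricSpace Y) (_ : BddGeometry Y) (_ : UnifDiscrete Y),
        Fails Y ∧ IsGraph d d Y ∧ ∃ e : Z → Y, Isometry e := by
  obtain ⟨τ⟩ := exists_tower
  obtain ⟨Y, _, hY, ne⟩ := family τ
  have c : ∀ t, ∃ (X : Type) (_ : MetricSpace X) (_ : BddGeometry X), IsGraph 1 3 X ∧ Det τ X ∧
      CEquiv (Y t) X ∧ Ray X ∧ Low 1 X := fun t => by
    obtain ⟨N, g, r, u⟩ := hY t
    obtain ⟨X, _, g', e, r', l⟩ := cubic g r
    have := g.bdd
    have := g'.bdd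
    exact ⟨X, _, this, g', ((hair τ).retract u).retract e.retract, e, r', l⟩
  refine ⟨fun n hn => ?_, fun Z _ N n h a b => ?_⟩
  · obtain ⟨k, rfl⟩ := Nat.exists_eq_add_of_le (show 1 ≤ n by omega)
    have : ∀ t, ∃ (X : Type) (_ : MetricSpace X) (_ : BddGeometry X),
        IsGraph (1 + k) (1 + k) X ∧ Det τ X ∧ CEquiv (Y t) X := fun t => by
      obtain ⟨X, _, _, g, d, e, -, l⟩ := c t
      obtain ⟨X', _, _, g', d', -, l'⟩ := regular g hn d k le_rfl
      exact ⟨X', _, ‹_›, g', d', e.trans (l' l).2⟩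
    choose X m b g d e using this
    have z := fun s t h (a : CEquiv (X s) (X t)) => ne s t h (((e s).trans a).trans (e t).symm)
    exact ⟨X, m, b, fun t => ⟨(g t).ud, (d t).fails, g t, fun Y _ _ h => ((d t).retract h).fails⟩,
      fun s t h a => h.lt_or_gt.elim (z s t · a) (z t s · a.symm)⟩
  · obtain ⟨X, _, _, g, d, -, r, -⟩ := c 0
    have := g.ud
    have := h.bdd
    have := h.ud
    obtain ⟨Y, _, _, _, c, ⟨e, i⟩, f⟩ := wedge r Z
    obtain ⟨Y', _, _, u, v, ⟨e', i'⟩, -⟩ := regular (f 3 N g.zero h) (max_lt a b) (d.retract c) n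
      (zero_add n).le
    rw [zero_add] at u
    exact ⟨Y', _, _, u.ud, v.fails, u, _, i'.comp i⟩

end Vale.Agent.N212R
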