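import Vale.Agent.N212R.Rips
import Vale.Agent.P212Z.MuZero

/-! Covering isometries of coarse maps and the vanishing in K-theory on the image of the base. -/

set_option linter.unusedSectionVars false

namespace Vale.Agent.N212R

open Vale.Agent.P212 Vale.Agent.P212Z Set
open ContinuousLinearMap hiding proj

/-- Bornologous maps. -/
def Born {X Y : Type} [MetricSpace X] [MetricSpace Y] (f : X → Y) : Prop :=
  ∀ r, ∃ s, Sc f f r s

/-- The isometry `U` covers the map `σ`. -/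
def Cov {P Q : Type} (U : LP P →L[ℂ] LP Q) (σ : P → Q) : Prop :=
  adjoint U ∘L U = 1 ∧ ∀ A, proj (gX Q ⁻¹' A) ∘L U = U ∘L proj (gX P ⁻¹' (σ ⁻¹' A))

section Cov

variable {P Q S : Type} {U U' : LP P →L[ℂ] LP Q} {σ : P → Q}

theorem cov_push {u : P × ℕ → Q × ℕ} (hu : Function.Injective u) (h : ∀ p, (u p).1 = σ p.1) :
    Cov (pushL2 u hu) σ :=
  ⟨adjoint_pushL2_comp hu, fun A => by
    rw [proj_comp_pushL2]
    exact congrArg (fun B => _ ∘L proj B) (Set.ext fun p => by simp [h])⟩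

theorem Cov.iso (h : Cov U σ) (x : LP P) : adjoint U (U x) = x := DFunLike.congr_fun h.1 x

theorem Cov.comp {V : LP Q →L[ℂ] LP S} {σ' : Q → S} (h : Cov U σ) (h' : Cov V σ') :
    Cov (V ∘L U) (σ' ∘ σ) :=
  ⟨by ext1 x; simp [h.iso, h'.iso], fun A => by
    rw [← comp_assoc, h'.2, comp_assoc, h.2]; rfl⟩

theorem Cov.blk [MetricSpace Q] (h : Cov U σ) (h' : Cov U' σ) (T : BX P) (x y : Q) :
    blk (gX Q) (U' ∘L T ∘L adjoint U) x y =
      U' ∘L blk (fun j : P × ℕ => σ j.1) T x y ∘L adjoint U := by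
  have a := congrArg adjoint (h.2 {y})
  rw [adjoint_comp, adjoint_comp, ← star_eq_adjoint (proj _), ← star_eq_adjoint (proj _),
    star_proj, star_proj] at a
  change (proj (gX Q ⁻¹' {x}) ∘L U') ∘L T ∘L (adjoint U ∘L proj (gX Q ⁻¹' {y})) = _
  rw [a, h'.2]
  rfl

variable [MetricSpace P] [BddGeometry P] [MetricSpace Q] [BddGeometry Q] [MetricSpace S]
  [BddGeometry S]

theorem Cov.roe (h : Cov U σ) (hf : Fib σ) (hb : Born σ) (T : BX P) (hT : IsRoe (gX P) T) :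
    IsRoe (gX Q) (U ∘L T ∘L adjoint U) := by
  obtain ⟨⟨R, a⟩, b⟩ := (isRoe_iff_bl id (fun x => finite_singleton x) T).1 hT
  obtain ⟨s, hs⟩ := hb R
  obtain ⟨⟨R', c⟩, d⟩ := (isRoe_iff_bl σ hf T).2
    ⟨⟨s, fun p q k => a p q (not_le.1 fun e => k.not_ge (hs p q e))⟩, b⟩
  refine ⟨⟨R', fun x y k => ?_⟩, fun x y => ?_⟩ <;> rw [h.blk h]
  · rw [c x y k]; simp
  · exact ((d x y).comp_clm (adjoint U)).clm_comp U

theorem Cov.prop (h : Cov U σ) (h' : Cov U' σ) : PropLE (gX Q) (U' ∘L adjoint U) 0 :=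
  fun x y k => (h.blk h' 1 x y).trans (by rw [PropLE.one le_rfl x y k]; simp)

theorem Cov.mult (h : Cov U σ) (h' : Cov U' σ) : IsMult (gX Q) (U' ∘L adjoint U) := by
  refine isMult_of_contraction (h.prop h') ((PropLE.one le_rfl).sub (h.prop h)) ?_
  ext1 x
  simp [star_eq_adjoint, h.iso, h'.iso]

variable [Nonempty P] [Nonempty Q] [Nonempty S]

/-- `Φ` is conjugation by `U`. -/
def Impl (U : LP P →L[ℂ] LP Q) (Φ : CM (gX P) →⋆ₐ[ℂ] CM (gX Q)) : Prop :=
  ∀ T (hT : IsRoe (gX P) T), ∃ h : IsRoe (gX Q) (U ∘L T ∘L adjoint U),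
    Φ (toMax _ ⟨T, hT.mem_roeU⟩) = toMax _ ⟨_, h.mem_roeU⟩

theorem cont (Φ : CM (gX P) →⋆ₐ[ℂ] CM (gX Q)) : Continuous Φ :=
  AddMonoidHomClass.continuous_of_bound Φ 1 fun x => by
    rw [one_mul]; exact NonUnitalStarAlgHom.norm_apply_le Φ x

variable {Φ Φ' : CM (gX P) →⋆ₐ[ℂ] CM (gX Q)}

theorem Cov.impl (h : Cov U σ) (hf : Fib σ) (hb : Born σ) : ∃ Φ, Impl U Φ :=
  ⟨CM.lift _ (unitExt _ ((roeToMax _).comp (conjN _ _ U h.1 (h.roe hf hb)))), fun T hT =>
    ⟨h.roe hf hb T hT, (CM.lift_toMax _ _ _).trans (unitExt_apply _ _ T hT)⟩⟩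

theorem impl_incl (W : Set Q) [Nonempty W] : Impl (inclL W) (inclC W) := fun T hT =>
  ⟨isRoe_incl W hT, (CM.lift_toMax _ _ _).trans (unitExt_apply _ _ T hT)⟩

theorem cov_incl (W : Set Q) : Cov (inclL W) Subtype.val := cov_push _ fun _ => rfl

theorem Impl.comp {V : LP Q →L[ℂ] LP S} {Ψ : CM (gX Q) →⋆ₐ[ℂ] CM (gX S)} (h : Impl U Φ)
    (h' : Impl V Ψ) : Impl (V ∘L U) (Ψ.comp Φ) := fun T hT => by
  obtain ⟨a, b⟩ := h T hT
  obtain ⟨c, d⟩ := h' _ a
  have e : (V ∘L U) ∘L T ∘L adjoint (V ∘L U) = V ∘L (U ∘L T ∘L adjoint U) ∘L adjoint V := by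
    rw [adjoint_comp]; rfl
  exact ⟨e ▸ c, ((congrArg Ψ b).trans d).trans (congrArg _ (Subtype.ext e.symm))⟩

theorem Impl.aug (h : Impl U Φ) (b : CM (gX P)) (hb : aug _ b = 0) : aug _ (Φ b) = 0 :=
  eq_on_ker_aug _ (fun b => P212.aug _ (Φ b)) (fun _ => 0)
    ((continuous_aug _).comp (cont Φ)) continuous_const
    (fun T hT => by obtain ⟨a, e⟩ := h T hT; exact e ▸ aug_roe _ _ a) b hb

theorem transfer (h : Cov U σ) (h' : Cov U' σ) (a : Impl U Φ) (a' : Impl U' Φ') {n : ℕ}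
    {e : Matrix (Fin n) (Fin n) (CM (gX P))} (he : e * e = e) (hI : ∀ i j, aug _ (e i j) = 0) :
    K0.map (Φ : CM (gX P) →+* CM (gX Q)) (K0.cls e he) =
      K0.map (Φ' : CM (gX P) →+* CM (gX Q)) (K0.cls e he) := by
  have k := (continuous_kap (gX Q)).comp (cont Φ)
  let v := toMM _ ⟨_, h.mult h'⟩
  rw [K0.map_cls, K0.map_cls]
  refine K0_transfer _ _ _ (fun i j => a.aug _ (hI i j)) (fun i j => a'.aug _ (hI i j)) v (star v)
    (fun i j => eq_on_ker_aug _ (fun b => star v * v * kap _ (Φ b)) (fun b => kap _ (Φ b))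
      (continuous_const.mul k) k (fun T hT => ?_) _ (hI i j))
    (fun i j => eq_on_ker_aug _ (fun b => kap _ (Φ' b)) (fun b => v * kap _ (Φ b) * star v)
      ((continuous_kap _).comp (cont Φ')) ((continuous_const.mul k).mul continuous_const)
      (fun T hT => ?_) _ (hI i j))
  all_goals
    obtain ⟨_, b⟩ := a T hT
    obtain ⟨_, b'⟩ := a' T hT
    simp only [b, b', kap_toMax, v, ← map_star, ← map_mul]
    refine congrArg _ (Subtype.ext ?_)
    ext1 x
    simp [star_eq_adjoint, h.iso, h'.iso]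

end Cov

variable {Y : Type} [MetricSpace Y] [BddGeometry Y] {τ : Tower}

/-- The inclusion of the image of the base is zero in K-theory. -/
theorem image_zero [Nonempty Y] {j : XT τ → Y} (hf : Fib j) (hb : Born j)
    (he : ∀ s, ∃ r, ∀ x x', dist (j x) (j x') ≤ s → dist x x' ≤ r) [Nonempty (j '' base τ)] :
    ∀ x ∈ K0Max (gX (j '' base τ)), K0incl (j '' base τ) x = 0 := by
  choose e e1 e2 using fun w : j '' base τ => w.2
  let σ : j '' base τ → base τ := fun w => ⟨e w, e1 w⟩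
  have i : Function.Injective σ := fun a b h => Subtype.ext
    ((e2 a).symm.trans ((congrArg (fun x : base τ => j x) h).trans (e2 b)))
  have c1 : Cov (pushL2 (Prod.map σ id) (i.prodMap Function.injective_id)) σ :=
    cov_push _ fun _ => rfl
  obtain ⟨Φ, a1⟩ := c1.impl (fun y => (finite_singleton y).preimage i.injOn) fun s =>
    (he s).imp fun r k a b h => k (e a) (e b) (by rw [e2, e2]; exact h)
  obtain ⟨c, hc⟩ := Countable.exists_injective_nat (XT τ × ℕ)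
  have c2 : Cov (pushL2 (fun p : XT τ × ℕ => (j p.1, c p)) fun _ _ h => hc (Prod.mk.inj h).2) j :=
    cov_push _ fun _ => rfl
  obtain ⟨Ψ, a2⟩ := c2.impl hf hb
  have c3 := (c1.comp (cov_incl _)).comp c2
  rw [show j ∘ Subtype.val ∘ σ = Subtype.val from funext e2] at c3
  have key : ∀ {n : ℕ} {f : Matrix (Fin n) (Fin n) (CM (gX (j '' base τ)))} (h : f * f = f),
      (∀ a b, aug _ (f a b) = 0) → K0incl (j '' base τ) (K0.cls f h) = 0 := fun h k => by
    have z := congrArg (K0.map (Ψ : CM (gX (XT τ)) →+* CM (gX Y)))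
      (cls_inclC_eq_zero τ (mapMat_idem (Φ : CM (gX (j '' base τ)) →+* CM (gX (base τ))) h)
        fun a b => a1.aug _ (k a b))
    rw [map_zero, K0.map_cls, K0.map_cls] at z
    refine (transfer (cov_incl _) c3 (impl_incl _) ((a1.comp (impl_incl _)).comp a2) h k).trans ?_
    rw [K0.map_cls]
    exact z
  intro x hx
  obtain ⟨n, f, g, h1, h2, k1, k2, rfl⟩ := K0Max_rep x hx
  rw [map_sub, key h1 k1, key h2 k2, sub_zero]

end Vale.Agent.N212R
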