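import Vale.Agent.P212Z.St

/-! Maps of Rips complexes: induced maps, linear homotopies, and maps which escape to infinity. -/

set_option linter.unusedSectionVars false

namespace Vale.Agent.N212R

open Vale.Agent.P212 Vale.Agent.P212Z Topology Filter ZeroAtInfty Set Finsupp

variable {X Y Z : Type} [MetricSpace X] [MetricSpace Y] [MetricSpace Z] {r s t : ℝ}

/-- Points at distance at most `r` have images at distance at most `s`. -/
def Sc (f g : X → Y) (r s : ℝ) : Prop := ∀ x x', dist x x' ≤ r → dist (f x) (g x') ≤ s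

/-- Finite fibres. -/
def Fib {X Y : Type} (f : X → Y) : Prop := ∀ y, (f ⁻¹' {y}).Finite

theorem md_apply {X Y : Type} {f : X → Y} (hf : Fib f) (a : X →₀ ℝ) (y : Y) :
    a.mapDomain f y = ∑ x ∈ (hf y).toFinset, a x := by
  classical
  rw [mapDomain, Finsupp.sum_apply, Finsupp.sum]
  simp only [single_apply]
  rw [← Finset.sum_filter]
  refine Finset.sum_subset (fun x hx => by simpa using (Finset.mem_filter.1 hx).2)
    fun x hx h => by_contra fun k => h (Finset.mem_filter.2 ⟨mem_support_iff.2 k, by simpa using hx⟩)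

theorem md_ne {X Y : Type} {f : X → Y} {a : X →₀ ℝ} {y : Y} (h : a.mapDomain f y ≠ 0) :
    ∃ x ∈ a.support, f x = y := by
  classical
  exact Finset.mem_image.1 (mapDomain_support (mem_support_iff.2 h))

theorem mix_ne {X Y ι : Type} {f : ι → X → Y} {c : ι → ℝ} {F : Finset ι} {a : X →₀ ℝ} {y : Y}
    (h : (∑ k ∈ F, c k • a.mapDomain (f k)) y ≠ 0) : ∃ k, c k ≠ 0 ∧ ∃ x ∈ a.support, f k x = y := by
  rw [Finsupp.finsetSum_apply] at h
  obtain ⟨k, -, hk⟩ := Finset.exists_ne_zero_of_sum_ne_zero h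
  exact ⟨k, left_ne_zero_of_mul hk, md_ne (right_ne_zero_of_mul hk)⟩

/-- A convex combination of images of a point. -/
noncomputable def mix {ι : Type} (f : ι → X → Y) (c : ι → ℝ) (F : Finset ι) (p : Rips X r)
    (h0 : ∀ k, 0 ≤ c k) (h1 : ∑ k ∈ F, c k = 1)
    (h : ∀ k k', c k ≠ 0 → c k' ≠ 0 → ∀ x ∈ p.t.support, ∀ x' ∈ p.t.support,
      dist (f k x) (f k' x') ≤ s) : Rips Y s where
  t := ∑ k ∈ F, c k • p.t.mapDomain (f k)
  nonneg y := by
    rw [Finsupp.finsetSum_apply]
    exact Finset.sum_nonneg fun k _ => mul_nonneg (h0 k) (mapDomain_nonneg p.nonneg y)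
  sum_one := by
    rw [← h1, ← Finsupp.sum_finsetSum_index (fun _ => rfl) (fun _ _ _ => rfl)]
    refine Finset.sum_congr rfl fun k _ => ?_
    rw [Finsupp.sum_smul_index' (fun _ => rfl), ← Finsupp.smul_sum,
      sum_mapDomain_index (fun _ => rfl) (fun _ _ _ => rfl), p.sum_one, smul_eq_mul, mul_one]
  simplex y hy y' hy' := by
    obtain ⟨k, a, x, b, rfl⟩ := mix_ne (mem_support_iff.1 hy)
    obtain ⟨k', a', x', b', rfl⟩ := mix_ne (mem_support_iff.1 hy')
    exact h k k' a a' x b x' b'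

theorem exists_rp {f : X → Y} (h : Sc f f r s) (p : Rips X r) :
    ∃ q : Rips Y s, q.t = p.t.mapDomain f :=
  ⟨mix (fun _ : Unit => f) (fun _ => 1) {()} p (fun _ => zero_le_one) (by simp)
    fun _ _ _ _ x a x' b => h x x' (p.simplex x a x' b), by simp [mix]⟩

/-- `ψ` is induced by `f`. -/
def Ind (f : X → Y) (ψ : C₀(Rips Y s, ℂ) →⋆ₙₐ[ℂ] C₀(Rips X r, ℂ)) : Prop :=
  ∀ g p q, q.t = p.t.mapDomain f → ψ g p = g q

theorem Ind.uniq {f : X → Y} (h : Sc f f r s) {ψ ψ' : C₀(Rips Y s, ℂ) →⋆ₙₐ[ℂ] C₀(Rips X r, ℂ)}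
    (a : Ind f ψ) (b : Ind f ψ') : ψ = ψ' := by
  ext g p
  obtain ⟨q, e⟩ := exists_rp h p
  rw [a g p q e, b g p q e]

theorem Ind.comp {f : X → Y} {f' : Y → Z} (h : Sc f f r s)
    {ψ : C₀(Rips Y s, ℂ) →⋆ₙₐ[ℂ] C₀(Rips X r, ℂ)} {ψ' : C₀(Rips Z t, ℂ) →⋆ₙₐ[ℂ] C₀(Rips Y s, ℂ)}
    (a : Ind f ψ) (b : Ind f' ψ') : Ind (f' ∘ f) (ψ.comp ψ') := fun g p q e => by
  obtain ⟨q', e'⟩ := exists_rp h p
  exact (a _ p q' e').trans (b g q' q (by rw [e, e', mapDomain_comp]))

theorem cpt_cover {K : Set (Rips Y s)} (hK : IsCompact K) :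
    ∃ B : Finset Y, ∀ q ∈ K, ∃ y ∈ B, q.t y ≠ 0 := by
  obtain ⟨B, hB⟩ := hK.elim_finite_subcover (fun y => {q : Rips Y s | 0 < q.t y})
    (fun y => isOpen_lt continuous_const (continuous_coord s y)) fun q _ =>
      mem_iUnion.2 (q.support_nonempty.imp fun _ => Rips.pos.1)
  refine ⟨B, fun q hq => ?_⟩
  obtain ⟨y, a, b⟩ := mem_iUnion₂.1 (hB hq)
  exact ⟨y, a, ne_of_gt b⟩

theorem c0_small (g : C₀(Rips Y s, ℂ)) {ε : ℝ} (hε : 0 < ε) :
    ∃ B : Finset Y, ∀ q : Rips Y s, (∀ y ∈ B, q.t y = 0) → ‖g q‖ < ε := by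
  obtain ⟨K, hK, h⟩ := mem_cocompact.1 (Metric.tendsto_nhds.1 g.zero_at_infty' ε hε)
  obtain ⟨B, hB⟩ := cpt_cover hK
  refine ⟨B, fun q hq => ?_⟩
  have := h (show q ∈ Kᶜ from fun k => by obtain ⟨y, a, b⟩ := hB q k; exact b (hq y a))
  simpa using this

variable [BddGeometry X] [BddGeometry Y]

theorem ind_res (h : r ≤ s) : Ind id (ripsRes (X := X) h) := fun g p q e =>
  congrArg g (Rips.ext' (by rw [e, mapDomain_id]; rfl))

theorem near {B : Set X} (hB : B.Finite) :
    ∃ K : Set (Rips X r), IsCompact K ∧ ∀ p : Rips X r, ∀ x ∈ p.t.support, x ∈ B → p ∈ K :=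
  ⟨_, hB.isCompact_biUnion fun x _ => isCompact_sub r (finite_closedBall x r).toFinset,
    fun _ _ a b => mem_biUnion b (star_subset (mem_support_iff.1 a))⟩

theorem cont_md {f : X → Z} (hf : Fib f) (y : Z) :
    Continuous fun p : Rips X r => p.t.mapDomain f y := by
  simp only [md_apply hf]
  exact continuous_finsetSum _ fun x _ => continuous_coord r x

section Ext

variable {P : Type} [TopologicalSpace P] [T2Space P] {U : Set P} {φ : U → Rips Y s}

/-- The map is proper. -/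
def Prp (φ : U → Rips Y s) : Prop :=
  ∀ B : Finset Y, ∃ K, IsCompact K ∧ K ⊆ U ∧ ∀ p : U, ∀ y ∈ B, (φ p).t y ≠ 0 → p.1 ∈ K

open Classical in
theorem ext_small (h : Prp φ) (g : C₀(Rips Y s, ℂ)) {ε : ℝ} (hε : 0 < ε) : ∃ K, IsCompact K ∧ K ⊆ U ∧
    ∀ p ∈ Kᶜ, dist (if a : p ∈ U then g (φ ⟨p, a⟩) else 0) 0 < ε := by
  obtain ⟨B, hB⟩ := c0_small g hε
  obtain ⟨K, a, b, c⟩ := h B
  refine ⟨K, a, b, fun p hp => ?_⟩
  split_ifs with k
  · rw [dist_zero_right]
    exact hB _ fun y hy => by_contra fun e => hp (c ⟨p, k⟩ y hy e)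
  · simpa using hε

open Classical in
/-- Pull back along a proper map on an open set, and extension by zero. -/
noncomputable def extHom (hU : IsOpen U) (hφ : Continuous φ) (h : Prp φ) :
    C₀(Rips Y s, ℂ) →⋆ₙₐ[ℂ] C₀(P, ℂ) where
  toFun g :=
    { toFun p := if a : p ∈ U then g (φ ⟨p, a⟩) else 0
      continuous_toFun := continuous_iff_continuousAt.2 fun p => by
        by_cases a : p ∈ U
        · refine (hU.isOpenEmbedding_subtypeVal.continuousAt_iff (x := ⟨p, a⟩)).1 ?_
          exact ((g.continuous.comp hφ).congr fun q => by simp [q.2]).continuousAt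
        · rw [ContinuousAt, dif_neg a]
          refine Metric.tendsto_nhds.2 fun ε hε => ?_
          obtain ⟨K, k1, k2, k3⟩ := ext_small h g hε
          exact mem_of_superset (k1.isClosed.isOpen_compl.mem_nhds fun e => a (k2 e)) k3
      zero_at_infty' := Metric.tendsto_nhds.2 fun ε hε => by
        obtain ⟨K, k1, -, k3⟩ := ext_small h g hε
        exact mem_of_superset k1.compl_mem_cocompact k3 }
  map_smul' _ _ := by ext p; by_cases a : p ∈ U <;> simp [a]
  map_zero' := by ext p; simp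
  map_add' _ _ := by ext p; by_cases a : p ∈ U <;> simp [a]
  map_mul' _ _ := by ext p; by_cases a : p ∈ U <;> simp [a]
  map_star' _ := by ext p; by_cases a : p ∈ U <;> simp [a]

theorem extHom_apply (hU : IsOpen U) (hφ : Continuous φ) (h : Prp φ) (g : C₀(Rips Y s, ℂ))
    (p : U) : extHom hU hφ h g p = g (φ p) := dif_pos p.2

end Ext

instance : T2Space (Rips X r) := (isEmbedding_coords r).t2Space

/-- Close maps induce homotopic homomorphisms. -/
theorem homotopy {f : Bool → X → Y} (hf : ∀ k, Fib (f k)) (h : ∀ k k', Sc (f k) (f k') r s) :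
    ∃ ψ : unitInterval → C₀(Rips Y s, ℂ) →⋆ₙₐ[ℂ] C₀(Rips X r, ℂ),
      Ind (f false) (ψ 0) ∧ Ind (f true) (ψ 1) ∧ ∀ g, Continuous fun u => ψ u g := by
  let c : unitInterval → Bool → ℝ := fun u k => bif k then u else 1 - u
  let H : unitInterval → Rips X r → Rips Y s := fun u p => mix f (c u) Finset.univ p
    (fun k => by cases k; exacts [sub_nonneg.2 u.2.2, u.2.1]) (by simp [c])
    fun k k' _ _ x a x' b => h k k' x x' (p.simplex x a x' b)
  have e : ∀ u p, (H u p).t = (u : ℝ) • p.t.mapDomain (f true) +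
    (1 - u : ℝ) • p.t.mapDomain (f false) := fun u p => Fintype.sum_bool _
  have hc : Continuous (Function.uncurry H) := (isInducing_coords s).continuous_iff.2
    (continuous_pi fun y => by
      have a := fun k => (cont_md (r := r) (hf k) y).comp (continuous_snd (X := unitInterval))
      have b := continuous_subtype_val.comp (continuous_fst (X := unitInterval) (Y := Rips X r))
      refine ((b.mul (a true)).add (((continuous_const (y := (1 : ℝ))).sub b).mul (a false))).congr fun z => ?_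
      exact (DFunLike.congr_fun (e z.1 z.2) y).symm)
  have hp : ∀ B : Finset Y, ∃ K, IsCompact K ∧ ∀ u p, ∀ y ∈ B, (H u p).t y ≠ 0 → p ∈ K := by
    intro B
    obtain ⟨K, a, b⟩ := near (r := r) (B.finite_toSet.biUnion fun y _ => finite_iUnion (hf · y))
    refine ⟨K, a, fun u p y hy hk => ?_⟩
    obtain ⟨k, -, x, d, rfl⟩ := mix_ne (f := f) (c := c u) (F := Finset.univ) hk
    exact b p x d (mem_biUnion hy (mem_iUnion.2 ⟨k, rfl⟩))
  let ψ := fun u => extHom isOpen_univ (φ := fun p => H u p.1)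
    ((hc.uncurry_left u).comp continuous_subtype_val) fun B =>
      (hp B).imp fun K k => ⟨k.1, subset_univ _, fun p => k.2 u p.1⟩
  have v : ∀ u g p, ψ u g p = g (H u p) := fun u g p => extHom_apply (U := univ) _ _ _ g ⟨p, mem_univ p⟩
  refine ⟨ψ, fun g p q k => ?_, fun g p q k => ?_, fun g => ?_⟩
  · rw [v]; exact congrArg g (Rips.ext' (by rw [e, k]; simp))
  · rw [v]; exact congrArg g (Rips.ext' (by rw [e, k]; simp))
  refine continuous_iff_continuousAt.2 fun u₀ => Metric.tendsto_nhds.2 fun ε hε => ?_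
  obtain ⟨B, hB⟩ := c0_small g (show 0 < ε / 4 by positivity)
  obtain ⟨K, a, b⟩ := hp B
  obtain ⟨V, hV, d⟩ := a.mem_uniformity_of_prod (f := fun u p => g (H u p)) (s := univ)
    (g.continuous.comp hc).continuousOn (mem_univ u₀) (Metric.dist_mem_uniformity (half_pos hε))
  rw [nhdsWithin_univ] at hV
  filter_upwards [hV] with u hu
  rw [← ZeroAtInftyContinuousMap.dist_toBCF_eq_dist]
  refine ((BoundedContinuousFunction.dist_le (half_pos hε).le).2 fun p => ?_).trans_lt
    (half_lt_self hε)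
  change dist (ψ u g p) (ψ u₀ g p) ≤ _
  rw [v, v]
  by_cases k : p ∈ K
  · exact (d u hu p k).le
  · have z := fun u => hB (H u p) fun y hy => by_contra fun e => k (b u p y hy e)
    linarith [dist_le_norm_add_norm (g (H u p)) (g (H u₀ p)), z u, z u₀]

theorem exists_ind {f : X → Y} (hf : Fib f) (h : Sc f f r s) :
    ∃ ψ : C₀(Rips Y s, ℂ) →⋆ₙₐ[ℂ] C₀(Rips X r, ℂ), Ind f ψ := by
  obtain ⟨ψ, a, -⟩ := homotopy (f := fun _ => f) (fun _ => hf) fun _ _ => h
  exact ⟨_, a⟩

/-- The tent functions. -/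
noncomputable def tent (u : ℝ) (k : ℕ) : ℝ :=
  max 0 (min (u - k + 1) 1) - max 0 (min (u - (k + 1 : ℕ) + 1) 1)

theorem tent_nonneg (u : ℝ) (k : ℕ) : 0 ≤ tent u k :=
  sub_nonneg.2 (max_le_max le_rfl (min_le_min (by push_cast; linarith) le_rfl))

theorem tent_ne {u : ℝ} {k : ℕ} (h : tent u k ≠ 0) : k < u + 1 ∧ u < k + 1 := by
  refine ⟨not_le.1 fun a => h ?_, not_le.1 fun a => h ?_⟩ <;> rw [tent] <;> push_cast
  · rw [max_eq_left (min_le_of_left_le (by linarith)),
      max_eq_left (min_le_of_left_le (by linarith)), sub_self]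
  · rw [min_eq_right (by linarith), min_eq_right (by linarith), sub_self]

theorem tent_sum {u : ℝ} (h : 0 ≤ u) : ∑ k ∈ Finset.range (⌈u⌉₊ + 1), tent u k = 1 := by
  have := Nat.le_ceil u
  rw [show ∑ k ∈ Finset.range (⌈u⌉₊ + 1), tent u k = _ from
    Finset.sum_range_sub' (fun k : ℕ => max 0 (min (u - k + 1) 1)) _]
  push_cast
  rw [min_eq_right (by linarith), max_eq_left (min_le_of_left_le (by linarith))]
  simp

/-- The points which approach the set `η` are sent to infinity along the maps `f k`. -/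
theorem escape {η : X → Prop} {f : ℕ → X → Y} (h1 : ∀ k, Fib (f k))
    (h2 : ∀ y, ∃ L, ∀ k x, f k x = y → k < L)
    (hA : ∀ x x', ¬ η x → ¬ η x' → dist x x' ≤ r → dist (f 0 x) (f 0 x') ≤ s)
    (hB : ∀ x₀ x₁ x x' k k', η x₀ → ¬ η x₁ → dist x₀ x₁ ≤ r → dist x₀ x ≤ r → dist x₀ x' ≤ r →
      k ≤ k' + 1 → k' ≤ k + 1 → dist (f k x) (f k' x') ≤ s) :
    ∃ ψ : C₀(Rips Y s, ℂ) →⋆ₙₐ[ℂ] C₀(Rips X r, ℂ), ∀ g p q, (∀ x ∈ p.t.support, ¬ η x) →
      q.t = p.t.mapDomain (f 0) → ψ g p = g q := by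
  classical
  let w : Rips X r → ℝ := fun p => ∑ x ∈ p.t.support with ¬ η x, p.t x
  have hw : Continuous w := continuous_iff_continuousAt.2 fun p => by
    obtain ⟨x, hx⟩ := p.support_nonempty
    refine (continuous_finsetSum (((finite_closedBall x r).toFinset).filter (¬ η ·))
      fun y _ => continuous_coord r y).continuousAt.congr ?_
    filter_upwards [(isOpen_lt continuous_const (continuous_coord r x)).mem_nhds (Rips.pos.1 hx)]
      with q hq
    refine (Finset.sum_subset (Finset.filter_subset_filter _ (star_subset hq.ne')) ?_).symm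
    exact fun y a b => by_contra fun k =>
      b (Finset.mem_filter.2 ⟨mem_support_iff.2 k, (Finset.mem_filter.1 a).2⟩)
  have w1 : ∀ p, w p ≤ 1 := fun p => (Finset.sum_le_sum_of_subset_of_nonneg
    (Finset.filter_subset _ _) fun x _ _ => p.nonneg x).trans_eq (p.sum_eq subset_rfl)
  have w2 : ∀ p : Rips X r, (∀ x ∈ p.t.support, ¬ η x) → w p = 1 := fun p h => by
    rw [← p.sum_eq subset_rfl]
    exact congrArg (∑ x ∈ ·, p.t x) (Finset.filter_true_of_mem h)
  have z : ∀ k, tent ((1 : ℝ)⁻¹ - 1) k ≠ 0 → k = 0 := fun k h => by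
    have := (tent_ne h).1
    rw [inv_one, sub_self, zero_add, Nat.cast_lt_one] at this
    exact this
  let φ : {p | 0 < w p} → Rips Y s := fun p => mix f (tent ((w p)⁻¹ - 1))
    (Finset.range (⌈(w p)⁻¹ - 1⌉₊ + 1)) p.1 (tent_nonneg _)
    (tent_sum (sub_nonneg.2 ((one_le_inv₀ p.2).2 (w1 _)))) fun k k' a a' x b x' b' => by
      by_cases e : ∀ x ∈ p.1.t.support, ¬ η x
      · rw [w2 _ e] at a a'
        rw [z k a, z k' a']
        exact hA x x' (e x b) (e x' b') (p.1.simplex x b x' b')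
      · obtain ⟨x₀, c⟩ := not_forall.1 e
        obtain ⟨c, d⟩ := Classical.not_imp.1 c
        obtain ⟨x₁, i, -⟩ := Finset.exists_ne_zero_of_sum_ne_zero (show w p ≠ 0 from ne_of_gt p.2)
        obtain ⟨i, j⟩ := Finset.mem_filter.1 i
        have u := tent_ne a
        have u' := tent_ne a'
        refine hB x₀ x₁ x x' k k' (not_not.1 d) j (p.1.simplex _ c _ i) (p.1.simplex _ c _ b)
          (p.1.simplex _ c _ b') (Nat.lt_succ_iff.1 ?_) (Nat.lt_succ_iff.1 ?_)
        · exact_mod_cast (by linarith : (k : ℝ) < k' + 1 + 1)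
        · exact_mod_cast (by linarith : (k' : ℝ) < k + 1 + 1)
  choose L hL using h2
  have hφ : Continuous φ := (isInducing_coords s).continuous_iff.2 (continuous_pi fun y => by
    have u : Continuous fun p : {p | 0 < w p} => (w p)⁻¹ - 1 :=
      ((hw.comp continuous_subtype_val).inv₀ fun p => ne_of_gt p.2).sub continuous_const
    refine (continuous_finsetSum (Finset.range (L y)) fun k _ => Continuous.mul
      (f := fun p : {p | 0 < w p} => tent ((w p)⁻¹ - 1) k) (by unfold tent; fun_prop)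
      ((cont_md (h1 k) y).comp continuous_subtype_val)).congr fun p => ?_
    refine Eq.trans ?_ (Finsupp.finsetSum_apply _ _ _).symm
    refine Finset.sum_congr_of_eq_on_inter (fun k _ a => mul_eq_zero_of_left (by_contra fun b =>
      a (Finset.mem_range.2 ?_)) _) (fun k _ a => mul_eq_zero_of_right _ (by_contra fun b =>
      a (Finset.mem_range.2 ?_))) fun _ _ _ => rfl
    · have := (tent_ne b).1.trans_le (add_le_add_left (Nat.le_ceil _) 1)
      exact_mod_cast this
    · obtain ⟨x, -, e⟩ := md_ne b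
      exact hL y k x e)
  refine ⟨extHom (isOpen_lt continuous_const hw) hφ fun B => ?_, fun g p q a b => ?_⟩
  · obtain ⟨K, a, b⟩ := near (r := r) (B.finite_toSet.biUnion fun y _ =>
      (finite_lt_nat (L y)).biUnion fun k _ => h1 k y)
    have c : (0 : ℝ) < (B.sup L : ℕ) + 1 := by positivity
    refine ⟨K ∩ {p | ((B.sup L : ℕ) + 1 : ℝ)⁻¹ ≤ w p},
      a.inter_right (isClosed_le continuous_const hw), fun p hp => (inv_pos.2 c).trans_le hp.2,
      fun p y hy hk => ?_⟩
    obtain ⟨k, i, x, d, rfl⟩ := mix_ne (f := f) (c := tent ((w p)⁻¹ - 1)) hk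
    refine ⟨b p x d (mem_biUnion hy (mem_biUnion (hL _ k x rfl) rfl)), ?_⟩
    have j : (k + 1 : ℝ) ≤ (B.sup L : ℕ) := by
      exact_mod_cast (hL _ k x rfl).trans_le (Finset.le_sup hy)
    exact (inv_le_comm₀ c p.2).2 (by linarith [(tent_ne i).2])
  · have e := w2 p a
    refine (extHom_apply (U := {p | 0 < w p}) _ _ _ g ⟨p, show 0 < w p from e ▸ zero_lt_one⟩).trans
      (congrArg g (Rips.ext' ?_))
    change ∑ k ∈ Finset.range (⌈(w p)⁻¹ - 1⌉₊ + 1), tent ((w p)⁻¹ - 1) k • p.t.mapDomain (f k) = _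
    rw [e, b]
    simp [tent]

end Vale.Agent.N212R
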