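import Vale.Agent.N212R.Det
import Mathlib.Topology.MetricSpace.Gluing
import Mathlib.Data.Set.Card.Arithmetic

/-! Graphs as metric spaces; graphs of degree three; wedges. -/

set_option linter.unusedSectionVars false

namespace Vale.Agent.N212R

open Vale.Agent.P212 Vale.Agent.P212Z Set SimpleGraph

section W

variable {V V' : Type} {Γ : SimpleGraph V} {Γ' : SimpleGraph V'} {k m : ℕ} {u v w : V}

/-- There is a walk of length at most `k`. -/
def W (Γ : SimpleGraph V) (k : ℕ) (v w : V) : Prop := ∃ p : Γ.Walk v w, p.length ≤ k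

theorem W.refl (k : ℕ) (v : V) : W Γ k v v := ⟨.nil, k.zero_le⟩

theorem W.mono (h : W Γ k v w) (e : k ≤ m) : W Γ m v w := h.imp fun _ a => a.trans e

theorem W.trans (h : W Γ k u v) (h' : W Γ m v w) : W Γ (k + m) u w := by
  obtain ⟨p, a⟩ := h
  obtain ⟨q, b⟩ := h'
  exact ⟨p.append q, by rw [Walk.length_append]; omega⟩

theorem W.symm (h : W Γ k v w) : W Γ k w v := by
  obtain ⟨p, a⟩ := h
  exact ⟨p.reverse, by rwa [Walk.length_reverse]⟩

theorem W.adj (h : Γ.Adj v w) : W Γ 1 v w := ⟨h.toWalk, le_rfl⟩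

theorem W.edge {E : V → V → Prop} (h : E v w) : W (fromRel E) 1 v w := by
  by_cases e : v = w
  · exact e ▸ .refl 1 v
  · exact .adj ⟨e, .inl h⟩

theorem W.pot {F : V → ℝ} (h : ∀ v w, Γ.Adj v w → F w ≤ F v + 1) (a : W Γ k v w) :
    F w ≤ F v + k := by
  obtain ⟨p, a⟩ := a
  refine le_trans ?_ (add_le_add_right (Nat.cast_le.2 a) _)
  clear a
  induction p with
  | nil => simp
  | cons e p ih => rw [Walk.length_cons]; push_cast; linarith [h _ _ e]

theorem W.map {f : V → V'} {c : ℕ} (h : ∀ v w, Γ.Adj v w → W Γ' c (f v) (f w)) (a : W Γ k v w) :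
    W Γ' (c * k) (f v) (f w) := by
  obtain ⟨p, a⟩ := a
  refine W.mono ?_ (Nat.mul_le_mul_left c a)
  clear a
  induction p with
  | nil => exact .refl _ _
  | cons e p ih => exact ((h _ _ e).trans ih).mono (by rw [Walk.length_cons]; nlinarith)

theorem conn_of (v : V) (h : ∀ w, ∃ k, W Γ k v w) : Γ.Connected :=
  (connected_iff_exists_forall_reachable Γ).2 ⟨v, fun w => by obtain ⟨_, p, -⟩ := h w; exact ⟨p⟩⟩

/-- The path metric. -/
@[reducible] noncomputable def gm (h : Γ.Connected) : MetricSpace V where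
  dist x y := Γ.dist x y
  dist_self _ := by simp
  dist_comm _ _ := by rw [SimpleGraph.dist_comm]
  dist_triangle _ _ _ := by exact_mod_cast h.dist_triangle
  eq_of_dist_eq_zero e := h.dist_eq_zero_iff.1 (by exact_mod_cast e)

theorem w_iff (h : Γ.Connected) : Γ.dist v w ≤ k ↔ W Γ k v w :=
  ⟨fun a => (h.exists_walk_length_eq_dist v w).imp fun _ e => e.trans_le a,
    fun ⟨p, a⟩ => (dist_le p).trans a⟩

theorem deg_le {E : V → V → Prop} (v : V) {a b : ℕ∞} (h : {w | E v w}.encard ≤ a)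
    (h' : {w | E w v}.encard ≤ b) : ((fromRel E).neighborSet v).encard ≤ a + b :=
  (encard_le_encard (t := {w | E v w} ∪ {w | E w v}) fun _ e => e.2).trans
    ((encard_union_le _ _).trans (add_le_add h h'))

variable [MetricSpace V]

theorem dist_iff (h : Γ.Connected) (e : ∀ x y : V, dist x y = Γ.dist x y) :
    dist v w ≤ k ↔ W Γ k v w := by rw [e, Nat.cast_le, w_iff h]

theorem dist_w (h : Γ.Connected) (e : ∀ x y : V, dist x y = Γ.dist x y) {r : ℝ}
    (a : dist v w ≤ r) : W Γ ⌈r⌉₊ v w := (dist_iff h e).1 (a.trans (Nat.le_ceil r))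

theorem IsGraph.zero {N : ℕ} (h : IsGraph m N V) : IsGraph 0 N V :=
  h.imp fun _ a => ⟨a.1, fun x => ⟨by simp, (a.2.1 x).2⟩, a.2.2⟩

theorem IsGraph.ud {N : ℕ} (h : IsGraph m N V) : UnifDiscrete V := by
  obtain ⟨Γ, a, -, e⟩ := h
  exact ⟨1, one_pos, fun x y b => by rw [e]; exact_mod_cast a.pos_dist_of_ne b⟩

theorem IsGraph.bdd {N : ℕ} (h : IsGraph m N V) : BddGeometry V := by
  obtain ⟨Γ, a, b, e⟩ := h
  replace b := fun x => (b x).2
  have key : ∀ k, ∃ M : ℕ, ∀ x, {y | W Γ k x y}.encard ≤ M := by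
    intro k
    induction k with
    | zero =>
      exact ⟨1, fun x => encard_le_one_iff_subsingleton.2 fun y ⟨p, c⟩ z ⟨q, d⟩ =>
        (p.eq_of_length_eq_zero (Nat.le_zero.1 c)).symm.trans
          (q.eq_of_length_eq_zero (Nat.le_zero.1 d))⟩
    | succ k ih =>
      obtain ⟨M, hM⟩ := ih
      refine ⟨1 + N * M, fun x => ?_⟩
      have f := finite_of_encard_le_coe (b x)
      refine (encard_le_encard (t := {x} ∪ ⋃ z ∈ f.toFinset, {y | W Γ k z y}) ?_).trans
        ((encard_union_le _ _).trans ?_)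
      · rintro y ⟨p | ⟨c, p⟩, d⟩
        · exact .inl rfl
        · exact .inr (mem_biUnion (f.mem_toFinset.2 c) ⟨p, by simpa using d⟩)
      rw [encard_singleton]
      push_cast
      refine add_le_add le_rfl ((f.toFinset.set_encard_biUnion_le _).trans
        ((Finset.sum_le_sum fun z _ => hM z).trans ?_))
      rw [Finset.sum_const, nsmul_eq_mul, ← f.encard_eq_coe_toFinset_card]
      exact mul_le_mul' (b x) le_rfl
  exact ⟨fun R => (key ⌈R⌉₊).imp fun M c x => (encard_le_encard fun y d =>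
    dist_w a e (Metric.mem_closedBall'.1 d)).trans (c x)⟩

end W

section Coarse

variable {X Y : Type} [MetricSpace X] [MetricSpace Y]

theorem coarse_of [BddGeometry Y] {f : X → Y} (h : Fib f) (h' : Born f) : Coarse f := by
  refine ⟨fun B b => ?_, h'⟩
  rcases B.eq_empty_or_nonempty with rfl | ⟨y, -⟩
  · exact Bornology.isBounded_empty
  · obtain ⟨R, k⟩ := b.subset_closedBall y
    exact (((finite_closedBall y R).subset k).preimage' fun y _ => h y).isBounded

theorem CEquiv.retract (h : CEquiv X Y) : Retract X Y := by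
  obtain ⟨i, ρ, a, b, D, c, -⟩ := h
  exact ⟨i, ρ, a, b, D, c⟩

theorem CEquiv.symm (h : CEquiv X Y) : CEquiv Y X := by
  obtain ⟨i, ρ, a, b, D, c, d⟩ := h
  exact ⟨ρ, i, b, a, D, d, c⟩

theorem CEquiv.refl : CEquiv X X :=
  have i : Coarse (id : X → X) := ⟨fun _ => id, fun r => ⟨r, fun _ _ => id⟩⟩
  ⟨id, id, i, i, 0, fun x => (dist_self x).le, fun x => (dist_self x).le⟩

theorem Coarse.comp {Z : Type} [MetricSpace Z] {f : X → Y} {g : Y → Z} (a : Coarse f)
    (b : Coarse g) : Coarse (g ∘ f) :=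
  ⟨fun B h => a.1 _ (b.1 B h), fun r => by
    obtain ⟨s, h⟩ := a.2 r
    exact (b.2 s).imp fun _ k x y e => k _ _ (h x y e)⟩

theorem CEquiv.trans {Z : Type} [MetricSpace Z] (h : CEquiv X Y) (h' : CEquiv Y Z) :
    CEquiv X Z := by
  obtain ⟨i, ρ, a, b, D, c, d⟩ := h
  obtain ⟨i', ρ', a', b', D', c', d'⟩ := h'
  obtain ⟨s, u⟩ := b.2 D'
  obtain ⟨s', u'⟩ := a'.2 D
  exact ⟨_, _, a.comp a', b'.comp b, max (s + D) (s' + D'), fun x => le_max_of_le_left
    ((dist_triangle _ (ρ (i x)) _).trans (add_le_add (u _ _ (c' _)) (c x))), fun z =>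
    le_max_of_le_right ((dist_triangle _ (i' (ρ' z)) _).trans (add_le_add (u' _ _ (d _)) (d' z)))⟩

/-- The vertices of degree at most `k` are coarsely dense. -/
def Low (k : ℕ) (X : Type) [MetricSpace X] : Prop :=
  ∃ D : ℝ, ∀ x : X, ∃ y, dist x y ≤ D ∧ {z | dist y z = 1}.encard ≤ k

theorem nb_eq {Γ : SimpleGraph X} (e : ∀ x y : X, dist x y = Γ.dist x y) (x : X) :
    {z | dist x z = 1} = Γ.neighborSet x :=
  Set.ext fun z => by rw [mem_ofPred_eq, e, Nat.cast_eq_one, dist_eq_one_iff_adj, mem_neighborSet]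

/-- There is a proper ray. -/
def Ray (X : Type) [MetricSpace X] : Prop :=
  ∃ γ : ℕ → X, Function.Injective γ ∧ ∃ c : ℝ, ∀ k, dist (γ k) (γ (k + 1)) ≤ c

/-- Every graph of bounded degree is a coarse retract of a graph of degree three. -/
theorem cubic {N : ℕ} (h : IsGraph 0 N X) (r : Ray X) : ∃ (Y : Type) (_ : MetricSpace Y),
    IsGraph 1 3 Y ∧ CEquiv X Y ∧ Ray Y ∧ Low 1 Y := by
  have := h.bdd
  obtain ⟨Γ, a, b, e⟩ := h
  replace b := fun x => (b x).2
  have : ∀ x, ∃ c : X → ℕ, InjOn c (Γ.neighborSet x) ∧ ∀ y ∈ Γ.neighborSet x, c y < N := by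
    intro x
    have f := finite_of_encard_le_coe (b x)
    have := f.fintype
    obtain ⟨c⟩ := Function.Embedding.nonempty_of_card_le (α := Γ.neighborSet x) (β := Fin N)
      (by
        rw [Fintype.card_fin, ← Set.toFinset_card, ← Nat.cast_le (α := ℕ∞),
          ← encard_eq_coe_toFinset_card]
        exact b x)
    classical
    refine ⟨fun y => if h : y ∈ Γ.neighborSet x then c ⟨y, h⟩ else 0, fun y i z j k => ?_,
      fun y i => ?_⟩
    · simp only [dif_pos i, dif_pos j] at k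
      exact congrArg Subtype.val (c.injective (Fin.ext k))
    · simp only [dif_pos i, Fin.is_lt]
  choose c c1 c2 using this
  let Δ : SimpleGraph (X × Fin (N + 1)) :=
    { Adj p q := (p.1 = q.1 ∧ (p.2.1 + 1 = q.2.1 ∨ q.2.1 + 1 = p.2.1)) ∨
        (Γ.Adj p.1 q.1 ∧ c p.1 q.1 = p.2 ∧ c q.1 p.1 = q.2)
      symm := ⟨fun p q h => h.imp (fun h => ⟨h.1.symm, h.2.symm⟩)
        fun h => ⟨h.1.symm, h.2.2, h.2.1⟩⟩
      loopless := ⟨fun p h => h.elim (fun h => by omega) fun h => Γ.irrefl h.1⟩ }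
  have w0 : ∀ x (i : Fin (N + 1)), W Δ N (x, 0) (x, i) := fun x i => by
    refine W.mono (k := i) ?_ (Nat.lt_succ_iff.1 i.2)
    induction i using Fin.induction with
    | zero => exact .refl _ _
    | succ i ih => exact ih.trans (.adj (.inl ⟨rfl, .inl rfl⟩))
  have w1 : ∀ x y, Γ.Adj x y → W Δ (N + 1 + N) (x, 0) (y, 0) := fun x y h =>
    ((w0 x ⟨_, (c2 x y h).trans N.lt_succ_self⟩).trans (.adj (.inr ⟨h, rfl, rfl⟩))).trans
      (w0 y ⟨_, (c2 y x h.symm).trans N.lt_succ_self⟩).symm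
  obtain ⟨γ, g1, s, g2⟩ := r
  have hΔ : Δ.Connected := conn_of (γ 0, 0) fun p =>
    ⟨_, (((w_iff a).1 le_rfl).map w1).trans (w0 p.1 p.2)⟩
  let _ := gm hΔ
  have : Nontrivial X := g1.nontrivial
  have G : IsGraph 1 3 (X × Fin (N + 1)) := ⟨Δ, hΔ, fun p => ⟨one_le_encard_iff_nonempty.2
      ((mem_support Δ).1 (hΔ.preconnected.support_eq_univ ▸ mem_univ p)), by
    refine (encard_le_encard (t := ({q | p.1 = q.1 ∧ p.2.1 + 1 = q.2.1} ∪
      {q | p.1 = q.1 ∧ q.2.1 + 1 = p.2.1}) ∪ {q | Γ.Adj p.1 q.1 ∧ c p.1 q.1 = p.2 ∧ c q.1 p.1 = q.2})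
      fun q h => h.imp (fun h => h.2.imp (⟨h.1, ·⟩) (⟨h.1, ·⟩)) id).trans
      ((encard_union_le _ _).trans ((add_le_add ((encard_union_le _ _).trans (add_le_add
      (encard_le_one_iff_subsingleton.2 ?_) (encard_le_one_iff_subsingleton.2 ?_)))
      (encard_le_one_iff_subsingleton.2 ?_)).trans_eq (by norm_num)))
    · exact fun q i q' j => Prod.ext (i.1.symm.trans j.1) (Fin.ext (i.2.symm.trans j.2))
    · exact fun q i q' j => Prod.ext (i.1.symm.trans j.1)
        (Fin.ext (Nat.succ_injective (i.2.trans j.2.symm)))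
    · intro q i q' j
      have k := c1 p.1 i.1 j.1 (i.2.1.trans j.2.1.symm)
      exact Prod.ext k (Fin.ext (by rw [← i.2.2, ← j.2.2, k]))⟩, fun _ _ => rfl⟩
  have := G.bdd
  have d := fun {k p q} (h : W Δ k p q) => (dist_iff hΔ fun _ _ => rfl).2 h
  have B : Born fun x => ((x, 0) : X × Fin (N + 1)) := fun r =>
    ⟨_, fun x y h => (dist_iff hΔ fun _ _ => rfl).2 ((dist_w a e h).map w1)⟩
  refine ⟨_, _, G, ⟨fun x => (x, 0), Prod.fst, coarse_of (fun p => (finite_singleton p).preimage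
    fun _ _ _ _ h => (Prod.mk.inj h).1) B, coarse_of (fun x => ?_) fun r => ⟨_, fun p q h =>
      (dist_iff a e).2 ((dist_w hΔ (fun _ _ => rfl) h).map (c := 1) fun p q h => ?_)⟩, N,
      fun x => (dist_self x).trans_le N.cast_nonneg, fun p => d (w0 p.1 p.2)⟩,
      ⟨fun k => (γ k, 0), fun _ _ h => g1 (Prod.mk.inj h).1, (B s).imp fun _ h k => h _ _ (g2 k)⟩,
      _, fun p => ⟨(p.1, Fin.last N), d ((w0 p.1 p.2).symm.trans (w0 _ _)), ?_⟩⟩
  · exact (finite_range (Prod.mk x)).subset fun p h => ⟨p.2, Prod.ext h.symm rfl⟩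
  · exact h.elim (fun h => h.1 ▸ .refl _ _) fun h => .adj h.1
  · rw [nb_eq (Γ := Δ) fun _ _ => rfl]
    have z : ∀ q, Δ.Adj (p.1, Fin.last N) q → p.1 = q.1 ∧ q.2.1 + 1 = N := by
      rintro q (⟨u, v | v⟩ | ⟨u, v, -⟩)
      · exact absurd q.2.2 (by simp at v; omega)
      · exact ⟨u, v⟩
      · exact absurd v (c2 _ _ u).ne
    exact encard_le_one_iff_subsingleton.2 fun q i q' j => Prod.ext
      ((z q i).1.symm.trans (z q' j).1) (Fin.ext (Nat.succ_injective
        ((z q i).2.trans (z q' j).2.symm)))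

/-- Doubling raises the least degree. -/
theorem double {m d : ℕ} (h : IsGraph m d X) (hm : m < d) : ∃ (Y : Type) (_ : MetricSpace Y),
    IsGraph (m + 1) d Y ∧ Retract X Y ∧ (∃ e : X → Y, Isometry e) ∧
      (Low m X → Low (m + 1) Y ∧ CEquiv X Y) := by
  have := h.bdd
  obtain ⟨Γ, a, b, e⟩ := h
  have hm' : ((m + 1 : ℕ) : ℕ∞) ≤ d := Nat.cast_le.2 hm
  by_cases c : ∀ x, d ≤ (Γ.neighborSet x).encard
  · exact ⟨X, _, ⟨Γ, a, fun x => ⟨hm'.trans (c x), (b x).2⟩, e⟩, CEquiv.refl.retract,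
      ⟨id, isometry_id⟩, fun h => ⟨h.imp fun _ h x => (h x).imp fun _ h =>
        ⟨h.1, h.2.trans (Nat.cast_le.2 m.le_succ)⟩, .refl⟩⟩
  obtain ⟨o, c⟩ := not_forall.1 c
  let Δ : SimpleGraph (X × Bool) :=
    { Adj p q := (Γ.Adj p.1 q.1 ∧ p.2 = q.2) ∨
        (p.1 = q.1 ∧ p.2 ≠ q.2 ∧ (Γ.neighborSet p.1).encard < d)
      symm := ⟨fun p q h => h.imp (fun h => ⟨h.1.symm, h.2.symm⟩)
        fun ⟨h, h', k⟩ => ⟨h.symm, h'.symm, h ▸ k⟩⟩
      loopless := ⟨fun p h => h.elim (fun h => Γ.irrefl h.1) fun h => h.2.1 rfl⟩ }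
  have w := fun t {k x y} (h : W Γ k x y) => h.map (Γ' := Δ) (f := fun x => (x, t)) (c := 1)
    fun _ _ h => .adj (.inl ⟨h, rfl⟩)
  have w' := fun {k p q} (h : W Δ k p q) => h.map (Γ' := Γ) (f := Prod.fst) (c := 1)
    fun _ _ h => Or.elim h (fun h => .adj h.1) fun h => h.1 ▸ .refl _ _
  have hΔ : Δ.Connected := conn_of (o, false) (by
    rintro ⟨x, _ | _⟩
    · exact ⟨_, w false ((w_iff a).1 le_rfl)⟩
    · exact ⟨_, (W.adj (Γ := Δ) (v := (o, false)) (w := (o, true))
        (Or.inr ⟨rfl, by simp, not_le.1 c⟩)).trans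
        (w true ((w_iff a).1 le_rfl))⟩)
  let _ := gm hΔ
  have i : ∀ x (t : Bool), ((fun y => (y, t)) '' Γ.neighborSet x).encard =
      (Γ.neighborSet x).encard := fun x t =>
    Function.Injective.encard_image (fun _ _ h => (Prod.mk.inj h).1) _
  have n : ∀ x t, (Γ.neighborSet x).encard < d →
      (Δ.neighborSet (x, t)).encard = (Γ.neighborSet x).encard + 1 := fun x t k => by
    rw [show Δ.neighborSet (x, t) = insert (x, !t) ((fun y => (y, t)) '' Γ.neighborSet x) by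
      ext ⟨y, s⟩
      cases s <;> cases t <;> simp [Δ, k, eq_comm, or_comm], encard_insert_of_notMem (by simp), i]
  have G : IsGraph (m + 1) d (X × Bool) := ⟨Δ, hΔ, fun ⟨x, t⟩ => by
    by_cases k : (Γ.neighborSet x).encard < d
    · rw [n x t k]
      exact ⟨by push_cast; exact add_le_add_left (b x).1 1, Order.add_one_le_of_lt k⟩
    · rw [show Δ.neighborSet (x, t) = (fun y => (y, t)) '' Γ.neighborSet x by
        ext ⟨y, s⟩
        simp [Δ, k, eq_comm], i]
      exact ⟨hm'.trans (not_lt.1 k), (b x).2⟩, fun _ _ => rfl⟩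
  have := G.bdd
  have I : ∀ x y t, dist ((x, t) : X × Bool) (y, t) = dist x y := fun x y t => by
    rw [e]
    exact congrArg Nat.cast (le_antisymm ((w_iff hΔ).2 (one_mul (Γ.dist x y) ▸ w t
      ((w_iff a).1 le_rfl))) ((w_iff a).2 (one_mul (Δ.dist _ _) ▸ w' ((w_iff hΔ).1 le_rfl))))
  have c1 : Coarse fun x => ((x, false) : X × Bool) := coarse_of (fun p => (finite_singleton
    p).preimage fun _ _ _ _ h => (Prod.mk.inj h).1) fun r => ⟨r, fun x y h => (I x y _).trans_le h⟩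
  have c2 : Coarse (Prod.fst : X × Bool → X) :=
    coarse_of (fun x => (finite_range (Prod.mk x)).subset fun p h => ⟨p.2, Prod.ext h.symm rfl⟩)
      fun r => ⟨_, fun p q h => (dist_iff a e).2 (w' (dist_w hΔ (fun _ _ => rfl) h))⟩
  refine ⟨_, _, G, ⟨_, _, c1, c2, 0, fun x => (dist_self x).le⟩,
    ⟨_, Isometry.of_dist_eq fun x y => I x y false⟩, fun ⟨D, h⟩ => ?_⟩
  simp only [nb_eq e] at h
  have l := fun {y} (h : (Γ.neighborSet y).encard ≤ m) => h.trans_lt (Nat.cast_lt.2 hm)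
  refine ⟨⟨D, fun ⟨x, t⟩ => ?_⟩, _, _, c1, c2, D + 1 + D, fun x => ?_, fun ⟨x, t⟩ => ?_⟩ <;>
    obtain ⟨y, u, v⟩ := h x
  · refine ⟨(y, t), (I x y t).trans_le u, ?_⟩
    rw [nb_eq (Γ := Δ) fun _ _ => rfl, n y t (l v)]
    push_cast
    exact add_le_add_left v 1
  · have := dist_nonneg.trans u
    exact (dist_self x).trans_le (by positivity)
  · have := dist_nonneg.trans u
    cases t
    · exact (dist_self _).trans_le (by positivity)
    · have z : dist ((y, false) : X × Bool) (y, true) ≤ (1 : ℕ) :=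
        (dist_iff hΔ fun _ _ => rfl).2 (.adj (Or.inr ⟨rfl, by simp, l v⟩))
      have := dist_triangle4 ((x, false) : X × Bool) (y, false) (y, true) (x, true)
      rw [I, I, _root_.dist_comm y] at this
      exact this.trans (by push_cast at z; linarith)

theorem regular {τ : Tower} [BddGeometry X] {m N d : ℕ} (h : IsGraph m N X) (e : N ≤ d)
    (a : Det τ X) (k : ℕ) (hk : m + k ≤ d) : ∃ (Y : Type) (_ : MetricSpace Y) (_ : BddGeometry Y),
    IsGraph (m + k) d Y ∧ Det τ Y ∧ (∃ e : X → Y, Isometry e) ∧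
      (Low m X → Low (m + k) Y ∧ CEquiv X Y) := by
  induction k with
  | zero =>
    obtain ⟨Γ, b, c, f⟩ := h
    exact ⟨X, _, ‹_›, ⟨Γ, b, fun x => ⟨(c x).1, (c x).2.trans (Nat.cast_le.2 e)⟩, f⟩, a, ⟨id,
      isometry_id⟩, fun h => ⟨h, .refl⟩⟩
  | succ k ih =>
    obtain ⟨Y, _, _, b, c, ⟨f, i⟩, l⟩ := ih (Nat.le_of_succ_le hk)
    obtain ⟨Z, _, b', c', ⟨f', i'⟩, l'⟩ := double b hk
    have := b'.bdd
    exact ⟨Z, _, this, b', c.retract c', ⟨_, i'.comp i⟩,
      fun h => ⟨(l' (l h).1).1, (l h).2.trans (l' (l h).1).2⟩⟩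

theorem enc_iso [BddGeometry X] {e : X → Y} (h : Isometry e) (R : ℝ) :
    ∃ N : ℕ, ∀ y, (e '' (e ⁻¹' Metric.closedBall y R)).encard ≤ N := by
  refine (BddGeometry.bdd (X := X) (R + R)).imp fun N a y => (encard_image_le _ _).trans ?_
  rcases (e ⁻¹' Metric.closedBall y R).eq_empty_or_nonempty with b | ⟨x, b⟩
  · simp [b]
  · refine (encard_le_encard fun z c => Metric.mem_closedBall.2 ?_).trans (a x)
    rw [← h.dist_eq]
    exact (dist_triangle_right _ _ y).trans (add_le_add c b)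

open Metric Sum in
/-- The wedge of two spaces. -/
theorem wedge [BddGeometry X] [UnifDiscrete X] (r : Ray X) (Z : Type) [MetricSpace Z]
    [BddGeometry Z] [UnifDiscrete Z] : ∃ (Y : Type) (_ : MetricSpace Y) (_ : BddGeometry Y)
    (_ : UnifDiscrete Y), Retract X Y ∧ (∃ e : Z → Y, Isometry e) ∧
      ∀ M N, IsGraph 0 M X → IsGraph 0 N Z → IsGraph 0 (max N M + 1) Y := by
  let _ : MetricSpace (X ⊕ Z) := metricSpaceSum
  obtain ⟨γ, g1, c, g2⟩ := r
  have c0 : 0 ≤ c := dist_nonneg.trans (g2 0)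
  have g3 : ∀ k m, dist (γ k) (γ (k + m)) ≤ c * m := fun k m => by
    induction m with
    | zero => simp
    | succ m ih =>
      push_cast
      linarith [dist_triangle (γ k) (γ (k + m)) (γ (k + (m + 1))), show dist (γ (k + m))
        (γ (k + (m + 1))) ≤ c from g2 (k + m)]
  have g4 : ∀ (k m : ℕ) (t : ℝ), k ≤ m + t → m ≤ k + t → dist (γ k) (γ m) ≤ c * t := by
    intro k m t a b
    rcases le_total k m with e | e <;> obtain ⟨n, rfl⟩ := Nat.exists_eq_add_of_le e <;>
      push_cast at a b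
    · exact (g3 k n).trans (mul_le_mul_of_nonneg_left (by linarith) c0)
    · exact (dist_comm _ _).trans_le ((g3 m n).trans (mul_le_mul_of_nonneg_left (by linarith) c0))
  let x₀ : X := Nonempty.some ⟨γ 0⟩
  let o : Z → Z := fun z => Nonempty.some ⟨z⟩
  have d1 : ∀ x z, dist (inl x : X ⊕ Z) (inr z) = dist x x₀ + 1 + dist (o z) z := fun _ _ => rfl
  have B : BddGeometry (X ⊕ Z) := ⟨fun R => by
    obtain ⟨M, a⟩ := enc_iso (isometry_inl (X := X) (Y := Z)) R
    obtain ⟨N, b⟩ := enc_iso (isometry_inr (X := X) (Y := Z)) R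
    refine ⟨M + N, fun p => (encard_le_encard ?_).trans ((encard_union_le _ _).trans
      ((add_le_add (a p) (b p)).trans_eq (Nat.cast_add M N).symm))⟩
    rintro (x | z) h
    exacts [.inl ⟨x, h, rfl⟩, .inr ⟨z, h, rfl⟩]⟩
  let ρ : X ⊕ Z → X := Sum.elim id fun z => γ ⌊dist (o z) z⌋₊
  have b1 : ∀ r x z, dist (inl x : X ⊕ Z) (inr z) ≤ r →
      dist (ρ (inl x)) (ρ (inr z)) ≤ r + dist x₀ (γ 0) + c * (r + 1) := fun r x z h => by
    rw [d1] at h
    have a := dist_nonneg (x := x) (y := x₀)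
    have b := dist_nonneg (x := o z) (y := z)
    have d := g4 0 ⌊dist (o z) z⌋₊ (r + 1)
      (by push_cast; linarith [⌊dist (o z) z⌋₊.cast_nonneg (α := ℝ)])
      (by push_cast; linarith [Nat.floor_le b])
    linarith [dist_triangle4 x x₀ (γ 0) (γ ⌊dist (o z) z⌋₊), show dist (ρ (inl x)) (ρ (inr z)) =
      dist x (γ ⌊dist (o z) z⌋₊) from rfl]
  refine ⟨X ⊕ Z, _, B, ?_, ⟨inl, ρ, coarse_of (fun p => (finite_singleton p).preimage
    inl_injective.injOn) fun r => ⟨r, fun _ _ h => h⟩, coarse_of (fun x => ?_) fun r =>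
    ⟨r + dist x₀ (γ 0) + c * (r + 1), ?_⟩, 0, fun x => (dist_self x).le⟩, ⟨inr, isometry_inr⟩, ?_⟩
  · obtain ⟨δ, a, b⟩ := UnifDiscrete.sep (X := X)
    obtain ⟨ε, d, e⟩ := UnifDiscrete.sep (X := Z)
    refine ⟨min (min δ ε) 1, by positivity, ?_⟩
    rintro (x | x) (y | y) h
    · exact min_le_of_left_le (min_le_of_left_le (b x y fun k => h (k ▸ rfl)))
    · exact min_le_of_right_le Sum.one_le_dist_inl_inr
    · exact min_le_of_right_le Sum.one_le_dist_inr_inl
    · exact min_le_of_left_le (min_le_of_right_le (e x y fun k => h (k ▸ rfl)))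
  · refine ((finite_singleton (inl x)).union (Finite.image inr (s := {z | ρ (inr z) = x})
      ?_)).subset ?_
    · rcases {z | ρ (inr z) = x}.eq_empty_or_nonempty with e | ⟨z, e⟩
      · exact e ▸ finite_empty
      · refine (finite_closedBall (o z) (⌊dist (o z) z⌋₊ + 1)).subset fun y h => ?_
        rw [← g1 (h.trans e.symm)]
        exact mem_closedBall'.2 (Nat.lt_floor_add_one _).le
    · rintro (y | y) h
      exacts [.inl (congrArg inl h), .inr ⟨y, h, rfl⟩]
  · rintro (x | x) (y | y) h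
    · have := dist_nonneg.trans h
      exact (show dist x y ≤ r from h).trans (by nlinarith [dist_nonneg (x := x₀) (y := γ 0)])
    · exact b1 r x y h
    · exact (dist_comm _ _).trans_le (b1 r y x ((dist_comm _ _).trans_le h))
    · have a := dist_nonneg.trans h
      have b : dist x y ≤ r := h
      have u := dist_triangle (o x) x y
      have v := dist_triangle_right (o x) x y
      have := g4 ⌊dist (o x) x⌋₊ ⌊dist (o x) y⌋₊ (r + 1)
        (by linarith [Nat.floor_le (dist_nonneg (x := o x) (y := x)),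
          Nat.lt_floor_add_one (dist (o x) y), dist_triangle_right (o x) x y])
        (by linarith [Nat.floor_le (dist_nonneg (x := o x) (y := y)),
          Nat.lt_floor_add_one (dist (o x) x)])
      exact this.trans (by linarith [dist_nonneg (x := x₀) (y := γ 0)])
  rintro M N ⟨Γ, a, b, e⟩ ⟨Γ', a', b', e'⟩
  replace b := fun x => (b x).2
  replace b' := fun x => (b' x).2
  obtain ⟨z⟩ := a'.nonempty
  let Δ : SimpleGraph (X ⊕ Z) :=
    { Adj p q := LiftRel Γ.Adj Γ'.Adj p q ∨ (p = inl x₀ ∧ q = inr (o z)) ∨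
        (p = inr (o z) ∧ q = inl x₀)
      symm := ⟨fun p q h => h.imp (fun h => by cases h <;> constructor <;> symm <;> assumption)
        fun h => h.symm.imp And.symm And.symm⟩
      loopless := ⟨by rintro (p | p) <;> simp⟩ }
  have m1 := fun x y => ((w_iff a).1 (le_refl (Γ.dist x y))).map (Γ' := Δ) (f := inl) (c := 1)
    fun _ _ h => .adj (.inl (.inl h))
  have m2 := fun x y => ((w_iff a').1 (le_refl (Γ'.dist x y))).map (Γ' := Δ) (f := inr) (c := 1)
    fun _ _ h => .adj (.inl (.inr h))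
  have m3 : ∀ x y, ∃ k : ℕ, dist (inl x : X ⊕ Z) (inr y) = k ∧ W Δ k (inl x) (inr y) :=
    fun x y => ⟨_, by rw [d1, e, e']; push_cast; ring,
      ((m1 x x₀).trans (.adj (.inr (.inl ⟨rfl, rfl⟩)))).trans (m2 (o z) y)⟩
  have m4 : ∀ p q : X ⊕ Z, ∃ k : ℕ, dist p q = k ∧ W Δ k p q := by
    rintro (x | x) (y | y)
    · exact ⟨_, (e x y).trans (by rw [one_mul]), m1 x y⟩
    · exact m3 x y
    · exact (m3 y x).imp fun _ h => ⟨(dist_comm _ _).trans h.1, h.2.symm⟩
    · exact ⟨_, (e' x y).trans (by rw [one_mul]), m2 x y⟩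
  have hΔ : Δ.Connected := conn_of (inl x₀) fun q => (m4 _ q).imp fun _ h => h.2
  refine ⟨Δ, hΔ, fun p => ⟨by simp, ?_⟩, fun p q => le_antisymm ?_ ?_⟩
  · push_cast
    rcases p with x | x
    · refine (encard_le_encard (t := insert (inr (o z)) (inl '' Γ.neighborSet x)) ?_).trans
        ((encard_insert_le _ _).trans (add_le_add_left ((encard_image_le _ _).trans
          ((b x).trans (by exact_mod_cast le_max_right N M))) _))
      rintro q (h | ⟨-, h⟩ | ⟨h, -⟩)
      exacts [by cases h with | inl h => exact .inr ⟨_, h, rfl⟩, .inl h, nomatch h]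
    · refine (encard_le_encard (t := insert (inl x₀) (inr '' Γ'.neighborSet x)) ?_).trans
        ((encard_insert_le _ _).trans (add_le_add_left ((encard_image_le _ _).trans
          ((b' x).trans (by exact_mod_cast le_max_left N M))) _))
      rintro q (h | ⟨h, -⟩ | ⟨-, h⟩)
      exacts [by cases h with | inr h => exact .inr ⟨_, h, rfl⟩, (nomatch h), .inl h]
  · have := W.pot (F := dist p) (fun v w h => (dist_triangle p v w).trans (add_le_add_right ?_ _))
      ((w_iff hΔ).1 (le_refl (Δ.dist p q)))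
    · simpa using this
    rcases h with h | ⟨rfl, rfl⟩ | ⟨rfl, rfl⟩
    · cases h with
      | inl h => exact_mod_cast (dist_iff a e).2 (.adj h)
      | inr h => exact_mod_cast (dist_iff a' e').2 (.adj h)
    · rw [d1]; simp [o]
    · rw [_root_.dist_comm, d1]; simp [o]
  · obtain ⟨k, u, v⟩ := m4 p q
    rw [u, Nat.cast_le]
    exact (w_iff hΔ).2 v

end Coarse

end Vale.Agent.N212R
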